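import Vale.Agent.P156.H801.Weak2
import Vale.Agent.P156.R2.Defs

/-! Resolvents of a real symmetric matrix with some vertices removed: spectral formula, Ward
identity (C2), weak type bound (C1). -/

namespace Vale.Agent.P156.H801

open Matrix Finset MeasureTheory Filter Topology ENNReal

noncomputable section

variable {V : Type*} [Fintype V] [DecidableEq V]

/-- `A` with the rows and columns in `D` replaced by zero. -/
def zo (A : Matrix V V ℝ) (D : Finset V) : Matrix V V ℝ :=
  fun x y => if x ∈ D ∨ y ∈ D then 0 else A x y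

omit [Fintype V] in
theorem zo_herm {A : Matrix V V ℝ} (hA : A.IsHermitian) (D : Finset V) : (zo A D).IsHermitian := by
  ext x y
  have h := congrFun (congrFun hA x) y
  simp only [Matrix.conjTranspose_apply, star_trivial] at h
  simp only [Matrix.conjTranspose_apply, zo, star_trivial, h, or_comm]

/-- The candidate for the inverse of `cutMat`. -/
def cand {A : Matrix V V ℝ} (hA : A.IsHermitian) (D : Finset V) (z : ℂ) : Matrix V V ℂ :=
  Matrix.of fun x y => if x ∈ D ∨ y ∈ D then (if x = y then 1 else 0) else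
    ∑ i, ((ev (zo_herm hA D) i x * ev (zo_herm hA D) i y : ℝ) : ℂ) /
      (((zo_herm hA D).eigenvalues i : ℂ) - z)

theorem cut_mul_cand {A : Matrix V V ℝ} (hA : A.IsHermitian) (D : Finset V) {z : ℂ}
    (hz : ∀ i, ((zo_herm hA D).eigenvalues i : ℂ) - z ≠ 0) :
    cutMat A D z * cand hA D z = 1 := by
  have key := rs_right_inv (zo_herm hA D) hz
  ext x y
  rw [Matrix.mul_apply, Matrix.one_apply]
  by_cases hx : x ∈ D
  · have h1 : ∀ c, cutMat A D z x c * cand hA D z c y = if x = c then cand hA D z c y else 0 := by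
      intro c
      unfold cutMat
      rw [if_pos (Or.inl hx)]
      split_ifs <;> simp
    simp only [h1]
    rw [Finset.sum_ite_eq, if_pos (Finset.mem_univ x)]
    unfold cand
    rw [Matrix.of_apply, if_pos (Or.inl hx)]
  · by_cases hy : y ∈ D
    · have hxy : x ≠ y := fun h => hx (h ▸ hy)
      rw [if_neg hxy]
      refine Finset.sum_eq_zero fun c _ => ?_
      unfold cand
      rw [Matrix.of_apply, if_pos (Or.inr hy)]
      by_cases hcy : c = y
      · subst hcy
        unfold cutMat
        rw [if_pos (Or.inr hy), if_neg hxy, zero_mul]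
      · rw [if_neg hcy, mul_zero]
    · have h1 := congrFun (congrFun key x) y
      rw [Matrix.mul_apply, Matrix.one_apply] at h1
      rw [← h1]
      refine Finset.sum_congr rfl fun c _ => ?_
      by_cases hc : c ∈ D
      · have hxc : x ≠ c := fun h => hx (h ▸ hc)
        have h2 : cutMat A D z x c = 0 := by
          unfold cutMat
          rw [if_pos (Or.inr hc), if_neg hxc]
        have h3 : ((zo A D).map Complex.ofReal - z • (1 : Matrix V V ℂ)) x c = 0 := by
          simp only [Matrix.sub_apply, Matrix.map_apply, Matrix.smul_apply, Matrix.one_apply, zo,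
            hc, or_true, if_true, hxc, if_false]
          simp
        rw [h2, h3, zero_mul, zero_mul]
      · have h2 : cutMat A D z x c = ((zo A D).map Complex.ofReal - z • (1 : Matrix V V ℂ)) x c := by
          simp only [cutMat, Matrix.sub_apply, Matrix.map_apply, Matrix.smul_apply,
            Matrix.one_apply, zo, hc, hx, or_self, if_false, smul_eq_mul]
          split_ifs <;> simp
        rw [h2]
        unfold cand
        rw [Matrix.of_apply, Matrix.of_apply, if_neg (by tauto)]

theorem isUnit_cutMat {A : Matrix V V ℝ} (hA : A.IsHermitian) (D : Finset V) {z : ℂ}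
    (hz : ∀ i, ((zo_herm hA D).eigenvalues i : ℂ) - z ≠ 0) : IsUnit (cutMat A D z).det :=
  Matrix.isUnit_det_of_right_inverse (cut_mul_cand hA D hz)

theorem resD_eq_cand {A : Matrix V V ℝ} (hA : A.IsHermitian) (D : Finset V) {z : ℂ}
    (hz : ∀ i, ((zo_herm hA D).eigenvalues i : ℂ) - z ≠ 0) : resD A D z = cand hA D z := by
  unfold resD
  exact Matrix.inv_eq_right_inv (cut_mul_cand hA D hz)

theorem eig_sub_ne {A : Matrix V V ℝ} (hA : A.IsHermitian) (D : Finset V) {z : ℂ} (hz : z.im ≠ 0)
    (i : V) : ((zo_herm hA D).eigenvalues i : ℂ) - z ≠ 0 :=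
  sub_ne_zero_of_im (zo_herm hA D) hz i

/-- Off the removed vertices the entries of the resolvent are Stieltjes transforms. -/
theorem resD_apply {A : Matrix V V ℝ} (hA : A.IsHermitian) {D : Finset V} {z : ℂ}
    (hz : ∀ i, ((zo_herm hA D).eigenvalues i : ℂ) - z ≠ 0) {x y : V} (hx : x ∉ D) (hy : y ∉ D) :
    resD A D z x y = hh (fun i => ev (zo_herm hA D) i x * ev (zo_herm hA D) i y)
      (zo_herm hA D).eigenvalues z := by
  rw [resD_eq_cand hA D hz]
  unfold cand hh
  rw [Matrix.of_apply, if_neg (by tauto)]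

theorem resD_apply_mem {A : Matrix V V ℝ} (hA : A.IsHermitian) {D : Finset V} {z : ℂ}
    (hz : ∀ i, ((zo_herm hA D).eigenvalues i : ℂ) - z ≠ 0) {x y : V} (h : x ∈ D ∨ y ∈ D) :
    resD A D z x y = if x = y then 1 else 0 := by
  rw [resD_eq_cand hA D hz]
  unfold cand
  rw [Matrix.of_apply, if_pos h]

theorem resD_symm {A : Matrix V V ℝ} (hA : A.IsHermitian) {D : Finset V} {z : ℂ}
    (hz : ∀ i, ((zo_herm hA D).eigenvalues i : ℂ) - z ≠ 0) (x y : V) :
    resD A D z x y = resD A D z y x := by
  rw [resD_eq_cand hA D hz]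
  unfold cand
  simp only [Matrix.of_apply]
  by_cases h : x ∈ D ∨ y ∈ D
  · rw [if_pos h, if_pos h.symm]
    simp only [eq_comm]
  · rw [if_neg h, if_neg (fun h' => h h'.symm)]
    simp only [mul_comm]

/-- the weights of a diagonal entry have mass one -/
theorem sum_ev_sq {A : Matrix V V ℝ} (hA : A.IsHermitian) (x : V) :
    ∑ i, ev hA i x * ev hA i x = 1 := by
  rw [ev_complete, if_pos rfl]

theorem sum_abs_ev {A : Matrix V V ℝ} (hA : A.IsHermitian) (x y : V) :
    ∑ i, |ev hA i x * ev hA i y| ≤ 1 := by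
  have h : ∀ i, |ev hA i x * ev hA i y| ≤ (ev hA i x * ev hA i x + ev hA i y * ev hA i y) / 2 := by
    intro i
    rw [abs_mul]
    nlinarith [sq_nonneg (|ev hA i x| - |ev hA i y|), abs_mul_abs_self (ev hA i x),
      abs_mul_abs_self (ev hA i y)]
  calc ∑ i, |ev hA i x * ev hA i y|
      ≤ ∑ i, (ev hA i x * ev hA i x + ev hA i y * ev hA i y) / 2 :=
        Finset.sum_le_sum fun i _ => h i
    _ = 1 := by
        rw [← Finset.sum_div, Finset.sum_add_distrib, sum_ev_sq, sum_ev_sq]
        norm_num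

/-- **C1**: weak type bound for the entries of the resolvent, uniformly in `η ≥ 0`. -/
theorem weak_resD {A : Matrix V V ℝ} (hA : A.IsHermitian) (D : Finset V) (x y : V) {η : ℝ}
    (hη : 0 ≤ η) {B : ℝ} (hB : 1 ≤ B) :
    volume {E : ℝ | B < ‖resD A D (E + η * Complex.I) x y‖} ≤ ENNReal.ofReal (160 / B) := by
  have hA' := zo_herm hA D
  have hB0 : 0 < B := by linarith
  have hnull : volume (Set.range hA'.eigenvalues) = 0 := (Set.finite_range _).measure_zero _
  have hz : ∀ E : ℝ, E ∉ Set.range hA'.eigenvalues → ∀ i,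
      (hA'.eigenvalues i : ℂ) - (E + η * Complex.I) ≠ 0 := by
    intro E hE i h
    refine hE ⟨i, ?_⟩
    have h2 := congrArg Complex.re h
    simp at h2
    linarith
  by_cases hD : x ∈ D ∨ y ∈ D
  · refine (measure_mono (t := Set.range hA'.eigenvalues) fun E hE => ?_).trans
      (hnull.le.trans bot_le)
    by_contra hcon
    have h1 : B < ‖resD A D (E + η * Complex.I) x y‖ := hE
    rw [resD_apply_mem hA (hz E hcon) hD] at h1
    split_ifs at h1
    · rw [norm_one] at h1; linarith
    · rw [norm_zero] at h1; linarith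
  · rw [not_or] at hD
    have hsub : {E : ℝ | B < ‖resD A D (E + η * Complex.I) x y‖} ⊆
        Set.range hA'.eigenvalues ∪ {E : ℝ | B < ‖hh (fun i => ev hA' i x * ev hA' i y)
          hA'.eigenvalues (E + η * Complex.I)‖} := by
      intro E hE
      by_cases hEr : E ∈ Set.range hA'.eigenvalues
      · exact Or.inl hEr
      · right
        have h1 : B < ‖resD A D (E + η * Complex.I) x y‖ := hE
        rw [resD_apply hA (hz E hEr) hD.1 hD.2] at h1
        exact h1
    calc volume {E : ℝ | B < ‖resD A D (E + η * Complex.I) x y‖}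
        ≤ _ := (measure_mono hsub).trans (measure_union_le _ _)
      _ ≤ 0 + ENNReal.ofReal (160 * (∑ i, |ev hA' i x * ev hA' i y|) / B) := by
          rw [hnull]
          exact add_le_add le_rfl (weak_type_signed _ _ hη hB0)
      _ ≤ ENNReal.ofReal (160 / B) := by
          rw [zero_add]
          refine ENNReal.ofReal_le_ofReal ?_
          gcongr
          linarith [sum_abs_ev hA' x y]

theorem weak_resD_real {A : Matrix V V ℝ} (hA : A.IsHermitian) (D : Finset V) (x y : V) {B : ℝ}
    (hB : 1 ≤ B) :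
    volume {E : ℝ | B < ‖resD A D (E : ℂ) x y‖} ≤ ENNReal.ofReal (160 / B) := by
  have := weak_resD hA D x y le_rfl hB
  simpa using this

/-! ### Ward identity (C2) -/

theorem ward_rs {A : Matrix V V ℝ} (hA : A.IsHermitian) (E : ℝ) {η : ℝ} (hη : 0 < η) (x : V) :
    ∑ y, ‖rs A (E + η * Complex.I) x y‖ ^ 2 = (rs A (E + η * Complex.I) x x).im / η := by
  set z : ℂ := E + η * Complex.I with hzdef
  have hzim : z.im = η := by simp [hzdef]
  have hz : ∀ i, (hA.eigenvalues i : ℂ) - z ≠ 0 :=
    sub_ne_zero_of_im hA (by rw [hzim]; exact hη.ne')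
  set t : V → ℂ := fun i => (ev hA i x : ℂ) / ((hA.eigenvalues i : ℂ) - z) with ht
  have h1 : ∀ y, rs A z x y = ∑ i, t i * (ev hA i y : ℂ) := by
    intro y
    rw [rs_apply hA hz]
    refine Finset.sum_congr rfl fun i _ => ?_
    rw [ht]
    push_cast
    ring
  have h2 : (((∑ y, ‖rs A z x y‖ ^ 2 : ℝ)) : ℂ) = ∑ i, (t i * (starRingEnd ℂ) (t i)) := by
    push_cast
    have e1 : ∀ y, ((‖rs A z x y‖ : ℂ)) ^ 2 =
        ∑ i, ∑ j, (t i * (starRingEnd ℂ) (t j)) * ((ev hA i y * ev hA j y : ℝ) : ℂ) := by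
      intro y
      rw [← Complex.mul_conj' , h1 y, map_sum, Finset.sum_mul_sum]
      refine Finset.sum_congr rfl fun i _ => Finset.sum_congr rfl fun j _ => ?_
      rw [map_mul, Complex.conj_ofReal]
      push_cast
      ring
    simp only [e1]
    rw [Finset.sum_comm]
    refine Finset.sum_congr rfl fun i _ => ?_
    rw [Finset.sum_comm]
    simp only [← Finset.mul_sum, ← Complex.ofReal_sum, ev_orth]
    rw [Finset.sum_eq_single i]
    · simp
    · intro j _ hji
      simp [Ne.symm hji]
    · intro h; exact absurd (Finset.mem_univ i) h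
  have h3 : (rs A z x x).im = ∑ i, (ev hA i x * ev hA i x) * pk η (hA.eigenvalues i - E) := by
    rw [rs_apply hA hz, Complex.im_sum]
    exact Finset.sum_congr rfl fun i _ => im_div' _ _ _ _
  have h4 : ∑ y, ‖rs A z x y‖ ^ 2 = ∑ i, ‖t i‖ ^ 2 := by
    have : (((∑ y, ‖rs A z x y‖ ^ 2 : ℝ)) : ℂ) = ((∑ i, ‖t i‖ ^ 2 : ℝ) : ℂ) := by
      rw [h2]
      push_cast
      exact Finset.sum_congr rfl fun i _ => Complex.mul_conj' _
    exact_mod_cast this
  rw [h4, h3, Finset.sum_div]
  refine Finset.sum_congr rfl fun i _ => ?_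
  rw [ht]
  simp only
  rw [norm_div, div_pow, Complex.norm_real, Real.norm_eq_abs, sq_abs]
  have h5 : ‖(hA.eigenvalues i : ℂ) - z‖ ^ 2 = (hA.eigenvalues i - E) ^ 2 + η ^ 2 := by
    rw [← Complex.normSq_eq_norm_sq, Complex.normSq_apply]
    simp [hzdef]
    ring
  rw [h5]
  unfold pk
  field_simp

theorem rs_symm {A : Matrix V V ℝ} (hA : A.IsHermitian) {z : ℂ}
    (hz : ∀ i, (hA.eigenvalues i : ℂ) - z ≠ 0) (x y : V) : rs A z x y = rs A z y x := by
  rw [rs_apply hA hz, rs_apply hA hz]
  exact Finset.sum_congr rfl fun i _ => by rw [mul_comm (ev hA i x)]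

theorem rs_zo_eq_zero {A : Matrix V V ℝ} (hA : A.IsHermitian) {D : Finset V} {z : ℂ}
    (hz : z.im ≠ 0) {x y : V} (hx : x ∉ D) (hy : y ∈ D) : rs (zo A D) z x y = 0 := by
  have hz' := fun i => eig_sub_ne hA D hz i
  have hz0 : z ≠ 0 := by
    rintro rfl
    exact hz rfl
  rw [rs_symm (zo_herm hA D) hz']
  have key : ((zo A D).map Complex.ofReal - z • (1 : Matrix V V ℂ)) * rs (zo A D) z = 1 := by
    unfold rs
    exact Matrix.mul_nonsing_inv _ (isUnit_det (zo_herm hA D) hz')
  have h1 := congrFun (congrFun key y) x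
  rw [Matrix.mul_apply, Matrix.one_apply, if_neg (fun h : y = x => hx (h ▸ hy))] at h1
  rw [Finset.sum_eq_single y] at h1
  · simp only [Matrix.sub_apply, Matrix.map_apply, Matrix.smul_apply, Matrix.one_apply, zo, hy,
      true_or, if_true] at h1
    simp only [Complex.ofReal_zero, smul_eq_mul, mul_one, zero_sub, neg_mul, neg_eq_zero,
      mul_eq_zero] at h1
    exact h1.resolve_left hz0
  · intro c _ hc
    simp only [Matrix.sub_apply, Matrix.map_apply, Matrix.smul_apply, Matrix.one_apply, zo, hy,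
      true_or, if_true, Ne.symm hc, if_false]
    simp
  · intro h; exact absurd (Finset.mem_univ y) h

/-- On and off the removed vertices. -/
theorem resD_eq_rs {A : Matrix V V ℝ} (hA : A.IsHermitian) {D : Finset V} {z : ℂ}
    (hz : z.im ≠ 0) {x : V} (hx : x ∉ D) (y : V) :
    resD A D z x y = rs (zo A D) z x y := by
  have hz' := fun i => eig_sub_ne hA D hz i
  by_cases hy : y ∈ D
  · rw [resD_apply_mem hA hz' (Or.inr hy), rs_zo_eq_zero hA hz hx hy,
      if_neg (fun h : x = y => hx (h ▸ hy))]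
  · rw [resD_apply hA hz' hx hy, rs_apply (zo_herm hA D) hz']
    rfl

/-- **C2 (Ward identity)** -/
theorem ward_resD {A : Matrix V V ℝ} (hA : A.IsHermitian) {D : Finset V} (E : ℝ) {η : ℝ}
    (hη : 0 < η) {x : V} (hx : x ∉ D) :
    ∑ y, ‖resD A D (E + η * Complex.I) x y‖ ^ 2 = (resD A D (E + η * Complex.I) x x).im / η := by
  have hz : ((E : ℂ) + η * Complex.I).im ≠ 0 := by simp [hη.ne']
  simp only [resD_eq_rs hA hz hx]
  exact ward_rs (zo_herm hA D) E hη x

theorem im_resD_diag {A : Matrix V V ℝ} (hA : A.IsHermitian) {D : Finset V} (E : ℝ) {η : ℝ}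
    (hη : 0 < η) {x : V} (hx : x ∉ D) :
    (resD A D (E + η * Complex.I) x x).im =
      ∑ i, (ev (zo_herm hA D) i x) ^ 2 * pk η ((zo_herm hA D).eigenvalues i - E) := by
  have hz : ((E : ℂ) + η * Complex.I).im ≠ 0 := by simp [hη.ne']
  rw [resD_apply hA (fun i => eig_sub_ne hA D hz i) hx hx, hh_im]
  simp only [sq]

theorem im_resD_diag_nonneg {A : Matrix V V ℝ} (hA : A.IsHermitian) (D : Finset V) (E : ℝ) {η : ℝ}
    (hη : 0 < η) (x : V) : 0 ≤ (resD A D (E + η * Complex.I) x x).im := by
  have hz : ((E : ℂ) + η * Complex.I).im ≠ 0 := by simp [hη.ne']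
  by_cases hx : x ∈ D
  · rw [resD_apply_mem hA (fun i => eig_sub_ne hA D hz i) (Or.inl hx), if_pos rfl]
    simp
  · rw [im_resD_diag hA E hη hx]
    exact Finset.sum_nonneg fun i _ => mul_nonneg (sq_nonneg _) (pk_nonneg hη.le _)

theorem im_resD_diag_pos {A : Matrix V V ℝ} (hA : A.IsHermitian) {D : Finset V} (E : ℝ) {η : ℝ}
    (hη : 0 < η) {x : V} (hx : x ∉ D) : 0 < (resD A D (E + η * Complex.I) x x).im := by
  rw [im_resD_diag hA E hη hx]
  have h1 : ∃ i, ev (zo_herm hA D) i x ≠ 0 := by
    by_contra hcon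
    push Not at hcon
    have h2 := sum_ev_sq (zo_herm hA D) x
    simp [hcon] at h2
  obtain ⟨i, hi⟩ := h1
  exact Finset.sum_pos' (fun i _ => mul_nonneg (sq_nonneg _) (pk_nonneg hη.le _))
    ⟨i, Finset.mem_univ i, mul_pos (by positivity) (pk_pos hη _)⟩

/-- total mass of the spectral measure -/
theorem integral_im_resD {A : Matrix V V ℝ} (hA : A.IsHermitian) {D : Finset V} {η : ℝ}
    (hη : 0 < η) {x : V} (hx : x ∉ D) :
    Integrable (fun E : ℝ => (resD A D (E + η * Complex.I) x x).im) ∧
      ∫ E : ℝ, (resD A D (E + η * Complex.I) x x).im = Real.pi := by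
  simp only [im_resD_diag hA _ hη hx]
  have hint : ∀ i, Integrable (fun E => ev (zo_herm hA D) i x ^ 2 *
      pk η ((zo_herm hA D).eigenvalues i - E)) := fun i => (integrable_pk_sub hη _).const_mul _
  refine ⟨integrable_finsetSum _ fun i _ => hint i, ?_⟩
  rw [integral_finsetSum _ fun i _ => hint i]
  simp only [integral_const_mul, integral_pk_sub hη]
  rw [← Finset.sum_mul]
  simp only [sq]
  rw [sum_ev_sq, one_mul]

/-- deterministic bound -/
theorem norm_resD_le {A : Matrix V V ℝ} (hA : A.IsHermitian) (D : Finset V) (E : ℝ) {η : ℝ}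
    (hη : 0 < η) (x y : V) : ‖resD A D (E + η * Complex.I) x y‖ ≤ max 1 (1 / η) := by
  have hz : ((E : ℂ) + η * Complex.I).im ≠ 0 := by simp [hη.ne']
  by_cases hD : x ∈ D ∨ y ∈ D
  · rw [resD_apply_mem hA (fun i => eig_sub_ne hA D hz i) hD]
    refine le_trans ?_ (le_max_left _ _)
    split_ifs <;> simp
  · rw [not_or] at hD
    rw [resD_apply hA (fun i => eig_sub_ne hA D hz i) hD.1 hD.2]
    refine le_trans ?_ (le_max_right _ _)
    unfold hh
    refine (norm_sum_le _ _).trans ?_
    have h1 : ∀ i, ‖((ev (zo_herm hA D) i x * ev (zo_herm hA D) i y : ℝ) : ℂ) /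
        (((zo_herm hA D).eigenvalues i : ℂ) - (E + η * Complex.I))‖ ≤
        |ev (zo_herm hA D) i x * ev (zo_herm hA D) i y| * (1 / η) := by
      intro i
      rw [norm_div, Complex.norm_real, Real.norm_eq_abs, div_eq_mul_one_div]
      refine mul_le_mul_of_nonneg_left ?_ (abs_nonneg _)
      refine one_div_le_one_div_of_le hη ?_
      have := Complex.abs_im_le_norm
        (((zo_herm hA D).eigenvalues i : ℂ) - (E + η * Complex.I))
      simp at this
      rwa [abs_of_pos hη] at this
    calc _ ≤ ∑ i, |ev (zo_herm hA D) i x * ev (zo_herm hA D) i y| * (1 / η) :=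
          Finset.sum_le_sum fun i _ => h1 i
      _ ≤ 1 * (1 / η) := by
          rw [← Finset.sum_mul]
          exact mul_le_mul_of_nonneg_right (sum_abs_ev _ _ _) (by positivity)
      _ = 1 / η := one_mul _

end

end Vale.Agent.P156.H801
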