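import Vale.Agent.P156.H801.NoLoss

/-! T5: uniform integrability of the squared eigenvectors near a bulk energy, averaged over the
energy, from the soft local law. -/

namespace Vale.Agent.P156.H801

open Matrix Finset MeasureTheory Filter Topology

noncomputable section

theorem window_eq {n lam B : ℝ} (hn : 0 < n) :
    {E : ℝ | |n * (lam - E)| ≤ B} = Set.Icc (lam - B / n) (lam + B / n) := by
  ext E
  simp only [Set.mem_ofPred_eq, Set.mem_Icc]
  rw [abs_mul, abs_of_pos hn, mul_comm, ← le_div_iff₀ hn, abs_le]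
  constructor
  · rintro ⟨h1, h2⟩
    exact ⟨by linarith, by linarith⟩
  · rintro ⟨h1, h2⟩
    exact ⟨by linarith, by linarith⟩

/-- the volume of a window is proportional to its length -/
theorem window_compare {n a b a₂ b₂ B L lam : ℝ} (hn : 0 < n) (hB : 0 ≤ B) (hL : 0 < L)
    (h1 : a₂ + (B + L) / n ≤ a) (h2 : b + (B + L) / n ≤ b₂) :
    volume ({E : ℝ | |n * (lam - E)| ≤ B} ∩ Set.Icc a b) ≤
      ENNReal.ofReal (B / L) * volume ({E : ℝ | |n * (lam - E)| ≤ L} ∩ Set.Icc a₂ b₂) := by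
  rw [window_eq hn, window_eq hn]
  rcases (Set.Icc (lam - B / n) (lam + B / n) ∩ Set.Icc a b).eq_empty_or_nonempty with h | h
  · rw [h]
    simp
  · obtain ⟨E, ⟨hE1, hE2⟩, hE3, hE4⟩ := h
    have h3 : Set.Icc (lam - L / n) (lam + L / n) ∩ Set.Icc a₂ b₂ =
        Set.Icc (lam - L / n) (lam + L / n) := by
      rw [Set.inter_eq_left]
      intro x hx
      have e1 : (B + L) / n = B / n + L / n := by ring
      rw [e1] at h1 h2
      exact ⟨by linarith [hx.1], by linarith [hx.2]⟩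
    rw [h3, Real.volume_Icc, ← ENNReal.ofReal_mul (by positivity)]
    refine (measure_mono Set.inter_subset_left).trans ?_
    rw [Real.volume_Icc]
    refine ENNReal.ofReal_le_ofReal (le_of_eq ?_)
    field_simp
    ring

theorem phi_sq {n : ℕ} (G : SimpleGraph (Fin n)) (i v : Fin n) :
    phi G i v ^ 2 = n * (ev (adj_isHermitian G) i v) ^ 2 := by
  unfold phi ev
  rw [mul_pow, Real.sq_sqrt (Nat.cast_nonneg n)]

/-- the truncated weights -/
def cut2 {n : ℕ} (M : ℝ) (G : SimpleGraph (Fin n)) (i v : Fin n) : ℝ :=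
  if M < phi G i v ^ 2 then phi G i v ^ 2 else 0

theorem cut2_nonneg {n : ℕ} (M : ℝ) (G : SimpleGraph (Fin n)) (i v : Fin n) :
    0 ≤ cut2 M G i v := by
  unfold cut2
  split_ifs <;> positivity

theorem one_term {n : ℕ} (G : SimpleGraph (Fin n)) (i v : Fin n) {L : ℝ} (hL : 0 < L)
    (hn : (0 : ℝ) < n) {E : ℝ} (hE : |xx E G i| ≤ L) :
    phi G i v ^ 2 ≤ 2 * L * ((ev (adj_isHermitian G) i v) ^ 2 * pk (L / n) (eig G i - E)) := by
  rw [phi_sq]
  set t := eig G i - E with ht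
  set w := (ev (adj_isHermitian G) i v) ^ 2 with hw
  have hw0 : 0 ≤ w := sq_nonneg _
  have hx : xx E G i = n * t := rfl
  rw [hx] at hE
  have h1 : (n * t) ^ 2 ≤ L ^ 2 := by
    rw [← sq_abs ((n : ℝ) * t)]
    exact pow_le_pow_left₀ (abs_nonneg _) hE 2
  have h2 : (n : ℝ) ≤ 2 * L * pk (L / n) t := by
    unfold pk
    rw [← mul_div_assoc, le_div_iff₀ (by positivity)]
    have h3 : (n : ℝ) * (t ^ 2 + (L / n) ^ 2) = ((n * t) ^ 2 + L ^ 2) / n := by
      field_simp
    rw [h3, div_le_iff₀ hn]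
    have h4 : 2 * L * (L / n) * n = 2 * L ^ 2 := by field_simp
    rw [h4]
    linarith
  nlinarith

theorem sum_cut_le {n d : ℕ} (hd : 3 ≤ d) (G : SimpleGraph (Fin n)) (v : Fin n) {L M : ℝ}
    (hL : 0 < L) (hn : (0 : ℝ) < n) (hM : 4 * L * (d : ℝ) ^ 2 ≤ M) {E : ℝ}
    (hE : E ^ 2 < 4 * ((d : ℝ) - 1)) :
    ∑ i, (if |xx E G i| ≤ L then cut2 M G i v else 0) ≤
      4 * L * |Xim G v (L / n) E - (mdE d E).im| := by
  have hη : 0 < L / (n : ℝ) := by positivity
  have hX0 := Xim_nonneg G v hη E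
  have hterm0 : ∀ i, 0 ≤ 2 * L * ((ev (adj_isHermitian G) i v) ^ 2 *
      pk (L / n) (eig G i - E)) := fun i =>
    mul_nonneg (by positivity) (mul_nonneg (sq_nonneg _) (pk_nonneg hη.le _))
  have hterm : ∀ i, (if |xx E G i| ≤ L then cut2 M G i v else 0) ≤
      2 * L * ((ev (adj_isHermitian G) i v) ^ 2 * pk (L / n) (eig G i - E)) := by
    intro i
    split_ifs with h
    · refine le_trans ?_ (one_term G i v hL hn h)
      unfold cut2
      split_ifs
      · exact le_rfl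
      · positivity
    · exact hterm0 i
  have hsum : ∑ i, (if |xx E G i| ≤ L then cut2 M G i v else 0) ≤ 2 * L * Xim G v (L / n) E := by
    rw [Xim_eq G v hη, Finset.mul_sum]
    exact Finset.sum_le_sum fun i _ => hterm i
  by_cases hex : ∃ i, |xx E G i| ≤ L ∧ M < phi G i v ^ 2
  · obtain ⟨i, hi1, hi2⟩ := hex
    have h1 := one_term G i v hL hn hi1
    have h2 : 2 * L * ((ev (adj_isHermitian G) i v) ^ 2 * pk (L / n) (eig G i - E)) ≤
        2 * L * Xim G v (L / n) E := by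
      rw [Xim_eq G v hη, Finset.mul_sum]
      exact Finset.single_le_sum (f := fun i => 2 * L * ((ev (adj_isHermitian G) i v) ^ 2 *
        pk (L / n) (eig G i - E))) (fun i _ => hterm0 i) (Finset.mem_univ i)
    have h3 : 2 * (d : ℝ) ^ 2 ≤ Xim G v (L / n) E := by
      have : 2 * L * (2 * (d : ℝ) ^ 2) ≤ 2 * L * Xim G v (L / n) E := by nlinarith
      exact le_of_mul_le_mul_left this (by positivity)
    have h4 := im_mdE_le hd hE
    have h5 := le_abs_self (Xim G v (L / n) E - (mdE d E).im)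
    nlinarith
  · have h0 : ∑ i, (if |xx E G i| ≤ L then cut2 M G i v else 0) = 0 := by
      refine Finset.sum_eq_zero fun i _ => ?_
      split_ifs with h
      · unfold cut2
        rw [if_neg fun h' => hex ⟨i, h, h'⟩]
      · rfl
    rw [h0]
    positivity

theorem lint_sum_ind {n : ℕ} (G : SimpleGraph (Fin n)) (v : Fin n) (M B : ℝ) (S : Set ℝ) :
    ∫⁻ E in S, ENNReal.ofReal (∑ i, (if |xx E G i| ≤ B then cut2 M G i v else 0)) =
      ∑ i, ENNReal.ofReal (cut2 M G i v) * volume ({E : ℝ | |xx E G i| ≤ B} ∩ S) := by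
  have hms : ∀ i, MeasurableSet {E : ℝ | |xx E G i| ≤ B} := by
    intro i
    unfold xx
    exact measurableSet_le (by fun_prop) measurable_const
  have h1 : ∀ E, ENNReal.ofReal (∑ i, (if |xx E G i| ≤ B then cut2 M G i v else 0)) =
      ∑ i, ENNReal.ofReal (cut2 M G i v) * {E : ℝ | |xx E G i| ≤ B}.indicator 1 E := by
    intro E
    rw [ENNReal.ofReal_sum_of_nonneg fun i _ => by split_ifs; exact cut2_nonneg _ _ _ _; rfl]
    refine Finset.sum_congr rfl fun i _ => ?_
    by_cases h : |xx E G i| ≤ B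
    · rw [if_pos h, Set.indicator_of_mem (show E ∈ {E : ℝ | |xx E G i| ≤ B} from h)]
      simp
    · rw [if_neg h, Set.indicator_of_notMem (show E ∉ {E : ℝ | |xx E G i| ≤ B} from h)]
      simp
  rw [lintegral_congr h1, lintegral_finsetSum _ fun i _ =>
    (measurable_one.indicator (hms i)).const_mul _]
  refine Finset.sum_congr rfl fun i _ => ?_
  rw [lintegral_const_mul _ (measurable_one.indicator (hms i)), lintegral_indicator_one (hms i),
    Measure.restrict_apply (hms i)]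

/-- comparison of the windows, one graph and one vertex -/
theorem UI_graph {n d : ℕ} (hd : 3 ≤ d) (G : SimpleGraph (Fin n)) (v : Fin n)
    {a b r B L M : ℝ} (hn : (0 : ℝ) < n) (hB : 0 ≤ B) (hL : 0 < L)
    (hr : r < 2 * Real.sqrt ((d : ℝ) - 1))
    (h1 : -r + (B + L) / n ≤ a) (h2 : b + (B + L) / n ≤ r) (hM : 4 * L * (d : ℝ) ^ 2 ≤ M) :
    ∫⁻ E in Set.Icc a b, ENNReal.ofReal (∑ i, (if |xx E G i| ≤ B then cut2 M G i v else 0)) ≤
      ENNReal.ofReal (4 * B) * ∫⁻ E in Set.Icc (-r) r,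
        ENNReal.ofReal |Xim G v (L / n) E - (mdE d E).im| := by
  have hmX : Measurable fun E : ℝ => ENNReal.ofReal |Xim G v (L / n) E - (mdE d E).im| := by
    have e1 := measurable_Xim G v (L / n)
    have e2 := measurable_mdE d
    exact (continuous_abs.measurable.comp (e1.sub (Complex.measurable_im.comp e2))).ennreal_ofReal
  rw [lint_sum_ind]
  calc ∑ i, ENNReal.ofReal (cut2 M G i v) * volume ({E : ℝ | |xx E G i| ≤ B} ∩ Set.Icc a b)
      ≤ ∑ i, ENNReal.ofReal (cut2 M G i v) * (ENNReal.ofReal (B / L) *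
          volume ({E : ℝ | |xx E G i| ≤ L} ∩ Set.Icc (-r) r)) := by
        refine Finset.sum_le_sum fun i _ => ?_
        gcongr
        exact window_compare hn hB hL h1 h2
    _ = ENNReal.ofReal (B / L) * ∫⁻ E in Set.Icc (-r) r,
          ENNReal.ofReal (∑ i, (if |xx E G i| ≤ L then cut2 M G i v else 0)) := by
        rw [lint_sum_ind, Finset.mul_sum]
        refine Finset.sum_congr rfl fun i _ => ?_
        ring
    _ ≤ ENNReal.ofReal (B / L) * ∫⁻ E in Set.Icc (-r) r,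
          ENNReal.ofReal (4 * L) * ENNReal.ofReal |Xim G v (L / n) E - (mdE d E).im| := by
        have hle : ∫⁻ E in Set.Icc (-r) r,
            ENNReal.ofReal (∑ i, (if |xx E G i| ≤ L then cut2 M G i v else 0)) ≤
            ∫⁻ E in Set.Icc (-r) r,
              ENNReal.ofReal (4 * L) * ENNReal.ofReal |Xim G v (L / n) E - (mdE d E).im| := ?_
        · gcongr
        refine setLIntegral_mono' (measurableSet_Icc (a := -r) (b := r)) fun E hE => ?_
        rw [← ENNReal.ofReal_mul (by positivity)]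
        exact ENNReal.ofReal_le_ofReal (sum_cut_le hd G v hL hn hM
          (bulk_sq hd (sq_lt_of_mem_Icc hr hE)))
    _ = _ := by
        rw [lintegral_const_mul _ hmX, ← mul_assoc, ← ENNReal.ofReal_mul (by positivity)]
        congr 2
        field_simp

theorem lintegral_avg {α X : Type*} [MeasurableSpace X] (μ : Measure X) (s : Finset α)
    {Φ : α → X → ℝ} (h0 : ∀ ω ∈ s, ∀ E, 0 ≤ Φ ω E) (hm : ∀ ω ∈ s, Measurable (Φ ω)) :
    ∫⁻ E, ENNReal.ofReal (avg s (fun ω => Φ ω E)) ∂μ =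
      (∑ ω ∈ s, ∫⁻ E, ENNReal.ofReal (Φ ω E) ∂μ) * ENNReal.ofReal ((s.card : ℝ)⁻¹) := by
  have h1 : ∀ E, ENNReal.ofReal (avg s (fun ω => Φ ω E)) =
      (∑ ω ∈ s, ENNReal.ofReal (Φ ω E)) * ENNReal.ofReal ((s.card : ℝ)⁻¹) := by
    intro E
    unfold avg
    rw [div_eq_mul_inv, ENNReal.ofReal_mul (Finset.sum_nonneg fun ω hω => h0 ω hω E),
      ENNReal.ofReal_sum_of_nonneg fun ω hω => h0 ω hω E]
  simp only [h1]
  rw [lintegral_mul_const _ (Finset.measurable_fun_sum s fun ω hω => (hm ω hω).ennreal_ofReal),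
    lintegral_finsetSum _ fun ω hω => (hm ω hω).ennreal_ofReal]

theorem measurable_cutsum {n : ℕ} (G : SimpleGraph (Fin n)) (v : Fin n) (M B : ℝ) :
    Measurable fun E : ℝ => ∑ i, (if |xx E G i| ≤ B then cut2 M G i v else 0) := by
  refine Finset.measurable_fun_sum _ fun i _ => ?_
  have h : MeasurableSet {E : ℝ | |xx E G i| ≤ B} := by
    unfold xx
    exact measurableSet_le (by fun_prop) measurable_const
  exact Measurable.ite h measurable_const measurable_const

theorem UI_avg {n d : ℕ} (hd : 3 ≤ d) {a b r B L M : ℝ} (hn : (0 : ℝ) < n) (hB : 0 ≤ B)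
    (hL : 0 < L) (hr : r < 2 * Real.sqrt ((d : ℝ) - 1))
    (h1 : -r + (B + L) / n ≤ a) (h2 : b + (B + L) / n ≤ r) (hM : 4 * L * (d : ℝ) ^ 2 ≤ M) :
    ∫⁻ E in Set.Icc a b, ENNReal.ofReal (avg (WW n d 1) (fun ω =>
        ∑ i, (if |xx E ω.1 i| ≤ B then cut2 M ω.1 i (ω.2.1 0) else 0))) ≤
      ENNReal.ofReal (4 * B) * ∫⁻ E in Set.Icc (-r) r, ENNReal.ofReal (avg (WW n d 1) (fun ω =>
        |Xim ω.1 (ω.2.1 0) (L / n) E - (mdE d E).im|)) := by
  rw [lintegral_avg (volume.restrict (Set.Icc a b)) (WW n d 1) (Φ := fun ω E =>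
      ∑ i, (if |xx E ω.1 i| ≤ B then cut2 M ω.1 i (ω.2.1 0) else 0))
      (fun ω _ E => Finset.sum_nonneg fun i _ => by split_ifs; exact cut2_nonneg _ _ _ _; rfl)
      (fun ω _ => measurable_cutsum _ _ _ _),
    lintegral_avg (volume.restrict (Set.Icc (-r) r)) (WW n d 1) (Φ := fun ω E =>
      |Xim ω.1 (ω.2.1 0) (L / n) E - (mdE d E).im|) (fun ω _ E => abs_nonneg _)
      (fun ω _ => continuous_abs.measurable.comp ((measurable_Xim _ _ _).sub
        (Complex.measurable_im.comp (measurable_mdE d)))), ← mul_assoc]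
  gcongr
  rw [Finset.mul_sum]
  exact Finset.sum_le_sum fun ω _ => UI_graph hd ω.1 (ω.2.1 0) hn hB hL hr h1 h2 hM

theorem interval_le_of_lint {F : ℝ → ℝ} (h0 : ∀ x, 0 ≤ F x) (hm : Measurable F) {a b ε : ℝ}
    (hab : a ≤ b) (hε : 0 ≤ ε)
    (h : ∫⁻ E in Set.Icc a b, ENNReal.ofReal (F E) ≤ ENNReal.ofReal ε) :
    ∫ E in a..b, F E ≤ ε := by
  rw [intervalIntegral.integral_of_le hab, ← integral_Icc_eq_integral_Ioc,
    integral_eq_lintegral_of_nonneg_ae (Eventually.of_forall h0) hm.aestronglyMeasurable]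
  exact ENNReal.toReal_le_of_le_ofReal hε h

/-- lower integral version of T5 -/
theorem UI_lint {d : ℕ} (hd : 3 ≤ d) (h : SpecLL d) {a b : ℝ} (hab : a < b)
    (ha : -(2 * Real.sqrt ((d : ℝ) - 1)) < a) (hb : b < 2 * Real.sqrt ((d : ℝ) - 1)) (B : ℝ)
    {ε : ℝ} (hε : 0 < ε) : ∃ M : ℝ, ∀ᶠ n in admissible d,
      ∫⁻ E in Set.Icc a b, ENNReal.ofReal (avg (WW n d 1) (fun ω =>
        ∑ i, (if |xx E ω.1 i| ≤ B then cut2 M ω.1 i (ω.2.1 0) else 0))) ≤ ENNReal.ofReal ε := by
  set Q := 2 * Real.sqrt ((d : ℝ) - 1) with hQ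
  set r : ℝ := (max (max (-a) b) 0 + Q) / 2 with hr
  have hQ0 : 0 < Q := by linarith
  have hm1 : max (max (-a) b) 0 < Q := max_lt (max_lt (by linarith) hb) hQ0
  have hm2 : -a ≤ max (max (-a) b) 0 := (le_max_left _ _).trans (le_max_left _ _)
  have hm3 : b ≤ max (max (-a) b) 0 := (le_max_right _ _).trans (le_max_left _ _)
  have hm4 : 0 ≤ max (max (-a) b) 0 := le_max_right _ _
  have hrQ : r < Q := by rw [hr]; linarith
  have hra : 0 < a + r := by rw [hr]; linarith
  have hrb : 0 < r - b := by rw [hr]; linarith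
  have hr0 : 0 < r := by rw [hr]; linarith
  set B' : ℝ := max B 0 with hB'
  have hB'0 : 0 ≤ B' := le_max_right _ _
  obtain ⟨L, hLp, hL⟩ := no_loss hd h hr0 hrQ (ε := ε / (4 * B' + 1)) (by positivity)
  refine ⟨4 * L * (d : ℝ) ^ 2, ?_⟩
  have hgap : 0 < min (a + r) (r - b) := lt_min hra hrb
  have hev : ∀ᶠ n : ℕ in atTop, (B' + L) / (n : ℝ) ≤ min (a + r) (r - b) := by
    have ht : Tendsto (fun n : ℕ => (B' + L) / (n : ℝ)) atTop (𝓝 0) :=
      tendsto_const_div_atTop_nhds_zero_nat _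
    exact (ht.eventually (gt_mem_nhds hgap)).mono fun n hn => le_of_lt hn
  filter_upwards [hL L le_rfl, admissible_lt, admissible_atTop hev] with n h1 h2 h3
  have hn0 : (0 : ℝ) < n := by exact_mod_cast (Nat.zero_le d).trans_lt h2
  have h4 : (B' + L) / (n : ℝ) ≤ a + r := h3.trans (min_le_left _ _)
  have h5 : (B' + L) / (n : ℝ) ≤ r - b := h3.trans (min_le_right _ _)
  have hstep : ∀ E : ℝ, avg (WW n d 1) (fun ω =>
      ∑ i, (if |xx E ω.1 i| ≤ B then cut2 (4 * L * (d : ℝ) ^ 2) ω.1 i (ω.2.1 0) else 0)) ≤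
      avg (WW n d 1) (fun ω =>
      ∑ i, (if |xx E ω.1 i| ≤ B' then cut2 (4 * L * (d : ℝ) ^ 2) ω.1 i (ω.2.1 0) else 0)) := by
    intro E
    refine avg_mono fun ω _ => Finset.sum_le_sum fun i _ => ?_
    by_cases hx : |xx E ω.1 i| ≤ B
    · rw [if_pos hx, if_pos (hx.trans (le_max_left _ _))]
    · rw [if_neg hx]
      split_ifs
      · exact cut2_nonneg _ _ _ _
      · exact le_rfl
  calc _ ≤ ∫⁻ E in Set.Icc a b, ENNReal.ofReal (avg (WW n d 1) (fun ω =>
        ∑ i, (if |xx E ω.1 i| ≤ B' then cut2 (4 * L * (d : ℝ) ^ 2) ω.1 i (ω.2.1 0) else 0))) :=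
        lintegral_mono fun E => ENNReal.ofReal_le_ofReal (hstep E)
    _ ≤ ENNReal.ofReal (4 * B') * ENNReal.ofReal (ε / (4 * B' + 1)) :=
        (UI_avg hd hn0 hB'0 hLp hrQ (by linarith) (by linarith) le_rfl).trans (by gcongr)
    _ ≤ ENNReal.ofReal ε := by
        rw [← ENNReal.ofReal_mul (by positivity)]
        refine ENNReal.ofReal_le_ofReal ?_
        rw [← mul_div_assoc, div_le_iff₀ (by positivity)]
        nlinarith

theorem cut2_ite {n : ℕ} (G : SimpleGraph (Fin n)) (i v : Fin n) (E B M : ℝ) :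
    (if |xx E G i| ≤ B ∧ M < phi G i v ^ 2 then phi G i v ^ 2 else 0) =
      (if |xx E G i| ≤ B then cut2 M G i v else 0) := by
  unfold cut2
  by_cases h1 : |xx E G i| ≤ B <;> by_cases h2 : M < phi G i v ^ 2 <;> simp [h1, h2]

/-- **T5**: the soft local law implies uniform integrability of the squared eigenvectors,
averaged over the energy. -/
theorem specUI_of_LL {d : ℕ} (hd : 3 ≤ d) (h : SpecLL d) : SpecUI d := by
  intro a b hab ha hb B ε hε
  obtain ⟨M, hM⟩ := UI_lint hd h hab ha hb B hε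
  refine ⟨M, hM.mono fun n hn => ?_⟩
  simp only [cut2_ite]
  refine interval_le_of_lint (fun E => avg_nonneg fun ω _ => Finset.sum_nonneg fun i _ => by
    split_ifs; exact cut2_nonneg _ _ _ _; rfl) (measurable_avg _ fun ω _ =>
    measurable_cutsum _ _ _ _) hab.le hε.le hn

end

end Vale.Agent.P156.H801
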