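import Mathlib

/-! Resolvents of real symmetric matrices: spectral formula, Ward identity. -/

namespace Vale.Agent.P156.H801

open Matrix Finset

noncomputable section

variable {V : Type*} [Fintype V] [DecidableEq V]

/-- the resolvent `(A - z)⁻¹` of a real matrix -/
def rs (A : Matrix V V ℝ) (z : ℂ) : Matrix V V ℂ := (A.map Complex.ofReal - z • (1 : Matrix V V ℂ))⁻¹

/-- the components of the eigenvectors -/
def ev {A : Matrix V V ℝ} (hA : A.IsHermitian) (i a : V) : ℝ := hA.eigenvectorBasis i a

theorem ev_complete {A : Matrix V V ℝ} (hA : A.IsHermitian) (a b : V) :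
    ∑ i, ev hA i a * ev hA i b = if a = b then 1 else 0 := by
  have h := hA.eigenvectorBasis.sum_inner_mul_inner (EuclideanSpace.single a (1 : ℝ))
    (EuclideanSpace.single b (1 : ℝ))
  simp only [EuclideanSpace.inner_single_left, EuclideanSpace.inner_single_right] at h
  simpa [ev, Pi.single_apply, eq_comm] using h

theorem ev_orth {A : Matrix V V ℝ} (hA : A.IsHermitian) (i j : V) :
    ∑ a, ev hA i a * ev hA j a = if i = j then 1 else 0 := by
  have h := orthonormal_iff_ite.1 hA.eigenvectorBasis.orthonormal i j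
  rw [PiLp.inner_apply] at h
  simpa [ev, mul_comm] using h

theorem ev_eigen {A : Matrix V V ℝ} (hA : A.IsHermitian) (i a : V) :
    ∑ c, A a c * ev hA i c = hA.eigenvalues i * ev hA i a := by
  have h := congrFun (hA.mulVec_eigenvectorBasis i) a
  simpa [Matrix.mulVec, dotProduct, ev] using h

theorem rs_right_inv {A : Matrix V V ℝ} (hA : A.IsHermitian) {z : ℂ}
    (hz : ∀ i, (hA.eigenvalues i : ℂ) - z ≠ 0) :
    (A.map Complex.ofReal - z • (1 : Matrix V V ℂ)) *
      (Matrix.of fun a b => ∑ i, ((ev hA i a * ev hA i b : ℝ) : ℂ) /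
        ((hA.eigenvalues i : ℂ) - z)) = 1 := by
  set M : Matrix V V ℂ := Matrix.of fun a b =>
    ∑ i, ((ev hA i a * ev hA i b : ℝ) : ℂ) / ((hA.eigenvalues i : ℂ) - z) with hM
  have h : (A.map Complex.ofReal - z • (1 : Matrix V V ℂ)) * M = 1 := by
    ext a b
    rw [Matrix.mul_apply, Matrix.one_apply]
    have h1 : ∀ c, (A.map Complex.ofReal - z • (1 : Matrix V V ℂ)) a c * M c b =
        ∑ i, ((A a c * ev hA i c : ℝ) : ℂ) * ((ev hA i b : ℂ) / ((hA.eigenvalues i : ℂ) - z)) -
          (if a = c then ∑ i, z * ((ev hA i a * ev hA i b : ℝ) / ((hA.eigenvalues i : ℂ) - z))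
            else 0) := by
      intro c
      have e1 : ∑ i, ((A a c * ev hA i c : ℝ) : ℂ) *
          ((ev hA i b : ℂ) / ((hA.eigenvalues i : ℂ) - z)) = (A a c : ℂ) * M c b := by
        rw [hM, Matrix.of_apply, Finset.mul_sum]
        refine Finset.sum_congr rfl fun i _ => ?_
        push_cast
        ring
      have e2 : ∑ i, z * ((ev hA i a * ev hA i b : ℝ) / ((hA.eigenvalues i : ℂ) - z)) =
          z * M a b := by
        rw [hM, Matrix.of_apply, Finset.mul_sum]
      rw [e1, e2]
      simp only [Matrix.sub_apply, Matrix.map_apply, Matrix.smul_apply, Matrix.one_apply,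
        smul_eq_mul]
      by_cases hac : a = c
      · subst hac
        simp only [if_true]
        ring
      · simp only [hac, if_false]
        ring
    simp only [h1]
    rw [Finset.sum_sub_distrib, Finset.sum_ite_eq, if_pos (Finset.mem_univ a), Finset.sum_comm,
      ← Finset.sum_sub_distrib]
    have h2 : ∀ i, ∑ c, ((A a c * ev hA i c : ℝ) : ℂ) *
        ((ev hA i b : ℂ) / ((hA.eigenvalues i : ℂ) - z)) -
        z * ((ev hA i a * ev hA i b : ℝ) / ((hA.eigenvalues i : ℂ) - z)) =
        ((ev hA i a * ev hA i b : ℝ) : ℂ) := by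
      intro i
      rw [← Finset.sum_mul, ← Complex.ofReal_sum, ev_eigen]
      have := hz i
      push_cast
      field_simp
    simp only [h2]
    rw [← Complex.ofReal_sum, ev_complete]
    split_ifs <;> simp
  exact h

/-- spectral formula -/
theorem rs_apply {A : Matrix V V ℝ} (hA : A.IsHermitian) {z : ℂ}
    (hz : ∀ i, (hA.eigenvalues i : ℂ) - z ≠ 0) (a b : V) :
    rs A z a b = ∑ i, ((ev hA i a * ev hA i b : ℝ) : ℂ) / ((hA.eigenvalues i : ℂ) - z) := by
  unfold rs
  rw [Matrix.inv_eq_right_inv (rs_right_inv hA hz)]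
  rfl

theorem isUnit_det {A : Matrix V V ℝ} (hA : A.IsHermitian) {z : ℂ}
    (hz : ∀ i, (hA.eigenvalues i : ℂ) - z ≠ 0) :
    IsUnit (A.map Complex.ofReal - z • (1 : Matrix V V ℂ)).det :=
  Matrix.isUnit_det_of_right_inverse (rs_right_inv hA hz)

theorem sub_ne_zero_of_im {A : Matrix V V ℝ} (hA : A.IsHermitian) {z : ℂ} (hz : z.im ≠ 0) (i : V) :
    (hA.eigenvalues i : ℂ) - z ≠ 0 := by
  intro h
  have := congrArg Complex.im h
  simp at this
  exact hz this

end

end Vale.Agent.P156.H801
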