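import Vale.Agent.P156.H801.NoLoss
import Vale.Agent.P156.H904.D3

/-! The Kesten-McKay count: the proportion of eigenvalues in a bulk interval tends in `L¹` to the
Kesten-McKay mass. -/

namespace Vale.Agent.P156.H801

open Matrix Finset MeasureTheory Filter Topology

noncomputable section

theorem hasDerivAt_atan_pk {η : ℝ} (hη : 0 < η) (lam E : ℝ) :
    HasDerivAt (fun E : ℝ => Real.arctan ((E - lam) / η)) (pk η (lam - E)) E := by
  have h := (((hasDerivAt_id E).sub_const lam).div_const η).arctan
  refine h.congr_deriv ?_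
  unfold pk
  simp only [id]
  field_simp
  ring

theorem continuous_pk {η : ℝ} (hη : 0 < η) : Continuous (pk η) := by
  unfold pk
  refine Continuous.div (by fun_prop) (by fun_prop) fun x => by positivity

theorem int_pk {η : ℝ} (hη : 0 < η) (lam c d : ℝ) :
    ∫ E in c..d, pk η (lam - E) = Real.arctan ((d - lam) / η) - Real.arctan ((c - lam) / η) := by
  refine intervalIntegral.integral_eq_sub_of_hasDerivAt
    (fun E _ => hasDerivAt_atan_pk hη lam E) ?_
  have := continuous_pk hη
  exact (this.comp (continuous_const.sub continuous_id)).intervalIntegrable _ _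

/-- the error of the window -/
def ew1 (δ η : ℝ) : ℝ := Real.pi - 2 * Real.arctan (δ / η)

theorem ew1_nonneg (δ η : ℝ) : 0 ≤ ew1 δ η := by
  unfold ew1
  have := Real.arctan_lt_pi_div_two (δ / η)
  linarith

theorem win_up {η : ℝ} (hη : 0 < η) {a b δ lam : ℝ} (h : lam ∈ Set.Icc a b) :
    Real.pi - ew1 δ η ≤ ∫ E in (a - δ)..(b + δ), pk η (lam - E) := by
  rw [int_pk hη]
  unfold ew1
  have h1 : Real.arctan (δ / η) ≤ Real.arctan ((b + δ - lam) / η) := by
    refine Real.arctan_strictMono.monotone ?_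
    gcongr
    linarith [h.2]
  have h2 : Real.arctan ((a - δ - lam) / η) ≤ -Real.arctan (δ / η) := by
    rw [← Real.arctan_neg, ← neg_div]
    refine Real.arctan_strictMono.monotone ?_
    gcongr
    linarith [h.1]
  linarith

theorem win_low {η : ℝ} (hη : 0 < η) {a b δ : ℝ} (lam : ℝ) :
    ∫ E in (a + δ)..(b - δ), pk η (lam - E) ≤
      Real.pi * (if lam ∈ Set.Icc a b then 1 else 0) + ew1 δ η := by
  rw [int_pk hη]
  have h0 := ew1_nonneg δ η
  have e1 := Real.arctan_lt_pi_div_two ((b - δ - lam) / η)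
  have e2 := Real.neg_pi_div_two_lt_arctan ((a + δ - lam) / η)
  split_ifs with h
  · linarith
  · unfold ew1 at *
    rw [Set.mem_Icc, not_and_or, not_le, not_le] at h
    rcases h with h | h
    · have h1 : Real.arctan (δ / η) ≤ Real.arctan ((a + δ - lam) / η) := by
        refine Real.arctan_strictMono.monotone ?_
        gcongr
        linarith
      have h3 := Real.arctan_lt_pi_div_two (δ / η)
      linarith
    · have h2 : Real.arctan ((b - δ - lam) / η) ≤ -Real.arctan (δ / η) := by
        rw [← Real.arctan_neg, ← neg_div]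
        refine Real.arctan_strictMono.monotone ?_
        gcongr
        linarith
      have h3 := Real.arctan_lt_pi_div_two (δ / η)
      linarith

/-- the proportion of eigenvalues in `[a,b]` -/
def Nab {n : ℕ} (G : SimpleGraph (Fin n)) (a b : ℝ) : ℝ :=
  (∑ i, if eig G i ∈ Set.Icc a b then (1 : ℝ) else 0) / n

theorem TT_pk {n : ℕ} (G : SimpleGraph (Fin n)) (E η : ℝ) :
    H904.TT (eig G) E η = (∑ i, pk η (eig G i - E)) / n := by
  unfold H904.TT
  rw [Fintype.card_fin]
  congr 1
  refine Finset.sum_congr rfl fun i _ => ?_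
  exact im_inv (eig G i) E η

theorem continuous_TT {n : ℕ} (G : SimpleGraph (Fin n)) {η : ℝ} (hη : 0 < η) :
    Continuous fun E => H904.TT (eig G) E η := by
  simp only [TT_pk]
  have := continuous_pk hη
  fun_prop

theorem int_TT {n : ℕ} (G : SimpleGraph (Fin n)) {η : ℝ} (hη : 0 < η) (c d : ℝ) :
    ∫ E in c..d, H904.TT (eig G) E η = (∑ i, ∫ E in c..d, pk η (eig G i - E)) / n := by
  simp only [TT_pk]
  rw [intervalIntegral.integral_div, intervalIntegral.integral_finsetSum]
  intro i _
  have := continuous_pk hη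
  exact (this.comp (continuous_const.sub continuous_id)).intervalIntegrable _ _

theorem Nab_le_one {n : ℕ} (G : SimpleGraph (Fin n)) (a b : ℝ) (hn : 0 < n) : Nab G a b ≤ 1 := by
  unfold Nab
  have hn' : (0 : ℝ) < n := by exact_mod_cast hn
  rw [div_le_one hn']
  calc (∑ i, if eig G i ∈ Set.Icc a b then (1 : ℝ) else 0) ≤ ∑ _i : Fin n, (1 : ℝ) :=
        Finset.sum_le_sum fun i _ => by split_ifs <;> norm_num
    _ = n := by simp

theorem N_up {n : ℕ} (G : SimpleGraph (Fin n)) {a b δ η : ℝ} (hη : 0 < η) (hn : 0 < n)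
    (hδ : 0 ≤ δ) (hab : a ≤ b) :
    Real.pi * Nab G a b ≤ (∫ E in (a - δ)..(b + δ), H904.TT (eig G) E η) + ew1 δ η := by
  have hn' : (0 : ℝ) < n := by exact_mod_cast hn
  have h1 : (Real.pi - ew1 δ η) * Nab G a b ≤ ∫ E in (a - δ)..(b + δ), H904.TT (eig G) E η := by
    rw [int_TT G hη]
    unfold Nab
    rw [mul_div_assoc', Finset.mul_sum]
    gcongr with i
    split_ifs with h
    · rw [mul_one]
      exact win_up hη h
    · rw [mul_zero]
      exact intervalIntegral.integral_nonneg (by linarith) fun E _ => pk_nonneg hη.le _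
  have h2 := Nab_le_one G a b hn
  have h3 := ew1_nonneg δ η
  nlinarith

theorem N_low {n : ℕ} (G : SimpleGraph (Fin n)) {a b δ η : ℝ} (hη : 0 < η) (hn : 0 < n) :
    (∫ E in (a + δ)..(b - δ), H904.TT (eig G) E η) ≤ Real.pi * Nab G a b + ew1 δ η := by
  have hn' : (0 : ℝ) < n := by exact_mod_cast hn
  rw [int_TT G hη]
  unfold Nab
  rw [mul_div_assoc', Finset.mul_sum, div_add' _ _ _ hn'.ne']
  gcongr
  have h : ∑ i : Fin n, (Real.pi * (if eig G i ∈ Set.Icc a b then (1 : ℝ) else 0) + ew1 δ η) =
      ∑ i, Real.pi * (if eig G i ∈ Set.Icc a b then (1 : ℝ) else 0) + ew1 δ η * n := by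
    rw [Finset.sum_add_distrib, Finset.sum_const, Finset.card_univ, Fintype.card_fin, nsmul_eq_mul,
      mul_comm (n : ℝ)]
  rw [← h]
  exact Finset.sum_le_sum fun i _ => win_low hη _

theorem g_int {d : ℕ} (hd : 3 ≤ d) {r c e : ℝ} (hr : r < 2 * Real.sqrt ((d : ℝ) - 1))
    (hc : -r ≤ c) (hce : c ≤ e) (he : e ≤ r) :
    IntervalIntegrable (fun E : ℝ => (mdE d E).im) volume c e := by
  refine ((continuousOn_im_mdE hd).mono fun E hE => ?_).intervalIntegrable
  rw [Set.uIcc_of_le hce] at hE
  exact bulk_sq hd (sq_lt_of_mem_Icc hr ⟨hc.trans hE.1, hE.2.trans he⟩)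

theorem g_small {d : ℕ} (hd : 3 ≤ d) {r c e : ℝ} (hr : r < 2 * Real.sqrt ((d : ℝ) - 1))
    (hc : -r ≤ c) (hce : c ≤ e) (he : e ≤ r) :
    ∫ E in c..e, (mdE d E).im ≤ (e - c) * (d : ℝ) ^ 2 := by
  calc ∫ E in c..e, (mdE d E).im ≤ ∫ _E in c..e, (d : ℝ) ^ 2 := by
        refine intervalIntegral.integral_mono_on hce (g_int hd hr hc hce he)
          intervalIntegrable_const fun E hE => ?_
        exact im_mdE_le hd (bulk_sq hd (sq_lt_of_mem_Icc hr ⟨hc.trans hE.1, hE.2.trans he⟩))
    _ = (e - c) * (d : ℝ) ^ 2 := by rw [intervalIntegral.integral_const, smul_eq_mul]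

theorem T_int {n d : ℕ} (hd : 3 ≤ d) (G : SimpleGraph (Fin n)) {η : ℝ} (hη : 0 < η) {r c e : ℝ}
    (hr : r < 2 * Real.sqrt ((d : ℝ) - 1)) (hc : -r ≤ c) (hce : c ≤ e) (he : e ≤ r) :
    IntervalIntegrable (fun E : ℝ => |H904.TT (eig G) E η - (mdE d E).im|) volume c e :=
  (((continuous_TT G hη).intervalIntegrable _ _).sub (g_int hd hr hc hce he)).abs

theorem T_sub {n d : ℕ} (hd : 3 ≤ d) (G : SimpleGraph (Fin n)) {η : ℝ} (hη : 0 < η) {r c e : ℝ}
    (hr : r < 2 * Real.sqrt ((d : ℝ) - 1)) (hc : -r ≤ c) (hce : c ≤ e) (he : e ≤ r) :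
    |(∫ E in c..e, H904.TT (eig G) E η) - ∫ E in c..e, (mdE d E).im| ≤
      ∫ E in (-r)..r, |H904.TT (eig G) E η - (mdE d E).im| := by
  rw [← intervalIntegral.integral_sub ((continuous_TT G hη).intervalIntegrable _ _)
    (g_int hd hr hc hce he)]
  refine (intervalIntegral.abs_integral_le_integral_abs hce).trans ?_
  exact intervalIntegral.integral_mono_interval hc hce he
    (Eventually.of_forall fun E => abs_nonneg _)
    (T_int hd G hη hr le_rfl (by linarith) le_rfl)

theorem N_compare {n d : ℕ} (hd : 3 ≤ d) (G : SimpleGraph (Fin n)) {η δ r a b : ℝ} (hη : 0 < η)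
    (hn : 0 < n) (hr : r < 2 * Real.sqrt ((d : ℝ) - 1)) (hδ : 0 < δ) (h1 : -r ≤ a - δ)
    (h2 : a + δ ≤ b - δ) (h3 : b + δ ≤ r) :
    |Real.pi * Nab G a b - ∫ E in a..b, (mdE d E).im| ≤
      (∫ E in (-r)..r, |H904.TT (eig G) E η - (mdE d E).im|) + 2 * δ * (d : ℝ) ^ 2 + ew1 δ η := by
  have hU := N_up G (a := a) (b := b) hη hn hδ.le (by linarith)
  have hL := N_low G (a := a) (b := b) (δ := δ) hη hn
  have e1 := T_sub hd G hη hr (c := a - δ) (e := b + δ) h1 (by linarith) h3
  have e2 := T_sub hd G hη hr (c := a + δ) (e := b - δ) (by linarith) (by linarith) (by linarith)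
  have g1 := g_int hd hr (c := a - δ) (e := a) h1 (by linarith) (by linarith)
  have g2 := g_int hd hr (c := a) (e := b) (by linarith) (by linarith) (by linarith)
  have g3 := g_int hd hr (c := b) (e := b + δ) (by linarith) (by linarith) (by linarith)
  have g4 := g_int hd hr (c := a) (e := a + δ) (by linarith) (by linarith) (by linarith)
  have g5 := g_int hd hr (c := a + δ) (e := b - δ) (by linarith) (by linarith) (by linarith)
  have g6 := g_int hd hr (c := b - δ) (e := b) (by linarith) (by linarith) (by linarith)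
  have s1 := g_small hd hr (c := a - δ) (e := a) h1 (by linarith) (by linarith)
  have s3 := g_small hd hr (c := b) (e := b + δ) (by linarith) (by linarith) (by linarith)
  have s4 := g_small hd hr (c := a) (e := a + δ) (by linarith) (by linarith) (by linarith)
  have s6 := g_small hd hr (c := b - δ) (e := b) (by linarith) (by linarith) (by linarith)
  have i1 : ∫ E in (a - δ)..(b + δ), (mdE d E).im = (∫ E in (a - δ)..a, (mdE d E).im) +
      (∫ E in a..b, (mdE d E).im) + ∫ E in b..(b + δ), (mdE d E).im := by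
    rw [intervalIntegral.integral_add_adjacent_intervals g1 g2,
      intervalIntegral.integral_add_adjacent_intervals (g1.trans g2) g3]
  have i2 : ∫ E in a..b, (mdE d E).im = (∫ E in a..(a + δ), (mdE d E).im) +
      (∫ E in (a + δ)..(b - δ), (mdE d E).im) + ∫ E in (b - δ)..b, (mdE d E).im := by
    rw [intervalIntegral.integral_add_adjacent_intervals g4 g5,
      intervalIntegral.integral_add_adjacent_intervals (g4.trans g5) g6]
  rw [abs_le] at e1 e2
  rw [abs_le]
  constructor
  · linarith [e2.1]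
  · linarith [e1.2]

theorem interval_le_of_lint' {F : ℝ → ℝ} (h0 : ∀ x, 0 ≤ F x) (hm : Measurable F) {a b ε : ℝ}
    (hab : a ≤ b) (hε : 0 ≤ ε)
    (h : ∫⁻ E in Set.Icc a b, ENNReal.ofReal (F E) ≤ ENNReal.ofReal ε) :
    ∫ E in a..b, F E ≤ ε := by
  rw [intervalIntegral.integral_of_le hab, ← integral_Icc_eq_integral_Ioc,
    integral_eq_lintegral_of_nonneg_ae (Eventually.of_forall h0) hm.aestronglyMeasurable]
  exact ENNReal.toReal_le_of_le_ofReal hε h

/-- **Kesten-McKay count**: the proportion of eigenvalues in a bulk interval converges in `L¹`. -/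
theorem km_count {d : ℕ} (hd : 3 ≤ d) (h : SpecLL d) {a b : ℝ} (hab : a < b)
    (ha : -(2 * Real.sqrt ((d : ℝ) - 1)) < a) (hb : b < 2 * Real.sqrt ((d : ℝ) - 1)) :
    Tendsto (fun n => avg (regularGraphs n d) (fun G =>
      |(∑ i, if eig G i ∈ Set.Icc a b then (1 : ℝ) else 0) / n - ∫ E in a..b, rho d E|))
      (admissible d) (𝓝 0) := by
  have hpi := Real.pi_pos
  have hmain : ∀ ε > 0, ∀ᶠ n in admissible d, avg (regularGraphs n d) (fun G =>
      |Real.pi * Nab G a b - ∫ E in a..b, (mdE d E).im|) ≤ ε := by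
    intro ε hε
    set Q := 2 * Real.sqrt ((d : ℝ) - 1) with hQ
    set r : ℝ := (max (max (-a) b) 0 + Q) / 2 with hr
    have hQ0 : 0 < Q := by linarith
    have hm1 : max (max (-a) b) 0 < Q := max_lt (max_lt (by linarith) hb) hQ0
    have hm2 : -a ≤ max (max (-a) b) 0 := (le_max_left _ _).trans (le_max_left _ _)
    have hm3 : b ≤ max (max (-a) b) 0 := (le_max_right _ _).trans (le_max_left _ _)
    have hm4 : 0 ≤ max (max (-a) b) 0 := le_max_right _ _
    have hrQ : r < Q := by rw [hr]; linarith
    have hra : 0 < a + r := by rw [hr]; linarith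
    have hrb : 0 < r - b := by rw [hr]; linarith
    have hr0 : 0 < r := by rw [hr]; linarith
    set δ : ℝ := min (min (a + r) (r - b)) (min ((b - a) / 2) (ε / (6 * (d : ℝ) ^ 2 + 1))) with hδ
    have hδ0 : 0 < δ := lt_min (lt_min hra hrb) (lt_min (by linarith) (by positivity))
    have hδ1 : δ ≤ a + r := (min_le_left _ _).trans (min_le_left _ _)
    have hδ2 : δ ≤ r - b := (min_le_left _ _).trans (min_le_right _ _)
    have hδ3 : δ ≤ (b - a) / 2 := (min_le_right _ _).trans (min_le_left _ _)
    have hδ4 : δ ≤ ε / (6 * (d : ℝ) ^ 2 + 1) := (min_le_right _ _).trans (min_le_right _ _)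
    have hδ5 : 2 * δ * (d : ℝ) ^ 2 ≤ ε / 3 := by
      rw [le_div_iff₀ (by positivity)] at hδ4
      nlinarith
    obtain ⟨L, hLp, hL⟩ := no_loss hd h hr0 hrQ (ε := ε / 3) (by positivity)
    have hew : ∀ᶠ n : ℕ in atTop, ew1 δ (L / n) ≤ ε / 3 := by
      have h1 : Tendsto (fun n : ℕ => δ / (L / (n : ℝ))) atTop atTop := by
        have h2 : (fun n : ℕ => δ / (L / (n : ℝ))) = fun n : ℕ => (n : ℝ) * (δ / L) := by
          funext n
          rw [div_div_eq_mul_div]
          ring
        rw [h2]
        exact tendsto_natCast_atTop_atTop.atTop_mul_const (by positivity)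
      have h3 : Tendsto (fun n : ℕ => ew1 δ (L / n)) atTop (𝓝 (Real.pi - 2 * (Real.pi / 2))) := by
        unfold ew1
        exact tendsto_const_nhds.sub (((Real.tendsto_arctan_atTop.mono_right
          nhdsWithin_le_nhds).comp h1).const_mul 2)
      have h4 : Real.pi - 2 * (Real.pi / 2) < ε / 3 := by linarith
      exact (h3.eventually (gt_mem_nhds h4)).mono fun n hn => le_of_lt hn
    filter_upwards [hL L le_rfl, admissible_lt, admissible_atTop hew] with n h1 h2 h3
    have hn : 0 < n := (Nat.zero_le d).trans_lt h2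
    have hn0 : (0 : ℝ) < n := by exact_mod_cast hn
    have hη : 0 < L / (n : ℝ) := by positivity
    rcases (regularGraphs n d).eq_empty_or_nonempty with hW | hW
    · rw [hW, avg_empty]
      exact hε.le
    have hTi : ∀ G ∈ regularGraphs n d, IntegrableOn (fun E : ℝ =>
        |H904.TT (eig G) E (L / n) - (mdE d E).im|) (Set.Ioc (-r) r) volume := by
      intro G _
      have := T_int hd G hη hrQ (c := -r) (e := r) le_rfl (by linarith) le_rfl
      rwa [intervalIntegrable_iff, Set.uIoc_of_le (by linarith)] at this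
    have hTavg : avg (regularGraphs n d) (fun G => ∫ E in (-r)..r,
        |H904.TT (eig G) E (L / n) - (mdE d E).im|) ≤ ε / 3 := by
      have e1 : avg (regularGraphs n d) (fun G => ∫ E in (-r)..r,
          |H904.TT (eig G) E (L / n) - (mdE d E).im|) =
          ∫ E in (-r)..r, avg (regularGraphs n d) (fun G =>
            |H904.TT (eig G) E (L / n) - (mdE d E).im|) := by
        rw [intervalIntegral.integral_of_le (by linarith), integral_avg _ hTi]
        simp only [intervalIntegral.integral_of_le (show -r ≤ r by linarith)]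
      rw [e1]
      refine interval_le_of_lint' ?_ ?_ (by linarith) (by positivity) ?_
      · exact fun E => avg_nonneg fun G _ => abs_nonneg _
      · refine measurable_avg _ fun G _ => ?_
        have m1 : Measurable fun E => H904.TT (eig G) E (L / n) := (continuous_TT G hη).measurable
        exact continuous_abs.measurable.comp (m1.sub (Complex.measurable_im.comp
          (measurable_mdE d)))
      · refine le_trans (lintegral_mono fun E => ENNReal.ofReal_le_ofReal ?_) h1
        have := H904.avg_TT_le (n := n) (d := d) hn E hη (mdE d E).im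
        refine this.trans (le_of_eq ?_)
        rfl
    calc avg (regularGraphs n d) (fun G => |Real.pi * Nab G a b - ∫ E in a..b, (mdE d E).im|)
        ≤ avg (regularGraphs n d) (fun G => (∫ E in (-r)..r,
          |H904.TT (eig G) E (L / n) - (mdE d E).im|) +
            (2 * δ * (d : ℝ) ^ 2 + ew1 δ (L / n))) := by
          refine avg_mono fun G _ => ?_
          have := N_compare hd G (a := a) (b := b) hη hn hrQ hδ0 (by linarith) (by linarith)
            (by linarith)
          linarith
      _ = avg (regularGraphs n d) (fun G => ∫ E in (-r)..r,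
          |H904.TT (eig G) E (L / n) - (mdE d E).im|) + (2 * δ * (d : ℝ) ^ 2 + ew1 δ (L / n)) := by
          rw [avg_add, avg_const hW]
      _ ≤ ε := by linarith
  have hg : Real.pi * ∫ E in a..b, rho d E = ∫ E in a..b, (mdE d E).im := by
    rw [← intervalIntegral.integral_const_mul]
    refine intervalIntegral.integral_congr fun E hE => ?_
    rw [Set.uIcc_of_le hab.le] at hE
    refine pi_mul_rho hd (bulk_sq hd (abs_lt.2 ⟨by linarith [hE.1], by linarith [hE.2]⟩))
  rw [Metric.tendsto_nhds]
  intro ε hε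
  filter_upwards [hmain (Real.pi * (ε / 2)) (by positivity)] with n hn
  rw [Real.dist_eq, sub_zero, abs_of_nonneg (avg_nonneg fun G _ => abs_nonneg _)]
  have h1 : Real.pi * avg (regularGraphs n d) (fun G =>
      |(∑ i, if eig G i ∈ Set.Icc a b then (1 : ℝ) else 0) / n - ∫ E in a..b, rho d E|) ≤
      Real.pi * (ε / 2) := by
    rw [← avg_const_mul]
    refine le_trans (avg_mono fun G _ => ?_) hn
    rw [← hg, ← mul_sub, abs_mul, abs_of_pos hpi]
    rfl
  have h2 := le_of_mul_le_mul_left h1 hpi
  linarith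

end

end Vale.Agent.P156.H801
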