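import Vale.Agent.P156.H801.Tight

/-! The Kesten-McKay density has total mass one. -/

namespace Vale.Agent.P156.H801

open Matrix Finset MeasureTheory Filter Topology

noncomputable section

variable {d : ℕ}

theorem bulk_sq (hd : 3 ≤ d) {E : ℝ} (hE : |E| < 2 * Real.sqrt ((d : ℝ) - 1)) :
    E ^ 2 < 4 * ((d : ℝ) - 1) := by
  have hd' : (3 : ℝ) ≤ d := by exact_mod_cast hd
  have h1 : E ^ 2 < (2 * Real.sqrt ((d : ℝ) - 1)) ^ 2 := by
    rw [← sq_abs E]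
    exact pow_lt_pow_left₀ hE (abs_nonneg _) (by norm_num)
  rw [mul_pow, Real.sq_sqrt (by linarith)] at h1
  linarith

theorem dsq_sub_pos (hd : 3 ≤ d) {E : ℝ} (hE : E ^ 2 < 4 * ((d : ℝ) - 1)) :
    1 ≤ (d : ℝ) ^ 2 - E ^ 2 := by
  have hd' : (3 : ℝ) ≤ d := by exact_mod_cast hd
  nlinarith

theorem im_mdE (hd : 3 ≤ d) {E : ℝ} (hE : E ^ 2 < 4 * ((d : ℝ) - 1)) :
    (mdE d E).im = d * Real.sqrt (4 * ((d : ℝ) - 1) - E ^ 2) / (2 * ((d : ℝ) ^ 2 - E ^ 2)) := by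
  have hd' : (3 : ℝ) ≤ d := by exact_mod_cast hd
  have h0 := dsq_sub_pos hd hE
  set s := Real.sqrt (4 * ((d : ℝ) - 1) - E ^ 2) with hs
  have hs2 : s ^ 2 = 4 * ((d : ℝ) - 1) - E ^ 2 := Real.sq_sqrt (by linarith)
  have hw : (E : ℂ) + d * mE d E =
      ((((d : ℝ) - 2) * E / (2 * ((d : ℝ) - 1)) : ℝ) : ℂ) +
        ((d * s / (2 * ((d : ℝ) - 1)) : ℝ) : ℂ) * Complex.I := by
    unfold mE
    rw [← hs]
    have hq : ((d : ℂ) - 1) ≠ 0 := by
      have : ((d : ℝ) - 1) ≠ 0 := by linarith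
      exact_mod_cast this
    push_cast
    field_simp
    ring
  unfold mdE
  rw [hw]
  set u : ℝ := ((d : ℝ) - 2) * E / (2 * ((d : ℝ) - 1)) with hu
  set v : ℝ := d * s / (2 * ((d : ℝ) - 1)) with hv
  rw [neg_div, Complex.neg_im, one_div, Complex.inv_im]
  have h1 : ((u : ℂ) + v * Complex.I).im = v := by simp
  have h2 : Complex.normSq ((u : ℂ) + v * Complex.I) = u ^ 2 + v ^ 2 := by
    rw [Complex.normSq_apply]
    simp
    ring
  rw [h1, h2]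
  have h3 : u ^ 2 + v ^ 2 = ((d : ℝ) ^ 2 - E ^ 2) / ((d : ℝ) - 1) := by
    have hq : ((d : ℝ) - 1) ≠ 0 := by linarith
    rw [hu, hv]
    field_simp
    rw [hs2]
    ring
  rw [h3, hv]
  have hq : ((d : ℝ) - 1) ≠ 0 := by linarith
  have h4 : ((d : ℝ) ^ 2 - E ^ 2) ≠ 0 := by linarith
  field_simp

theorem im_mdE_nonneg (hd : 3 ≤ d) {E : ℝ} (hE : E ^ 2 < 4 * ((d : ℝ) - 1)) :
    0 ≤ (mdE d E).im := by
  rw [im_mdE hd hE]
  have h0 := dsq_sub_pos hd hE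
  positivity

theorem im_mdE_le (hd : 3 ≤ d) {E : ℝ} (hE : E ^ 2 < 4 * ((d : ℝ) - 1)) :
    (mdE d E).im ≤ (d : ℝ) ^ 2 := by
  have hd' : (3 : ℝ) ≤ d := by exact_mod_cast hd
  rw [im_mdE hd hE]
  have h0 := dsq_sub_pos hd hE
  have h1 : Real.sqrt (4 * ((d : ℝ) - 1) - E ^ 2) ≤ 2 * d := by
    rw [Real.sqrt_le_left (by positivity)]
    nlinarith [sq_nonneg E]
  rw [div_le_iff₀ (by linarith)]
  nlinarith

theorem pi_mul_rho (hd : 3 ≤ d) {E : ℝ} (hE : E ^ 2 < 4 * ((d : ℝ) - 1)) :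
    Real.pi * rho d E = (mdE d E).im := by
  rw [im_mdE hd hE]
  unfold rho
  have h0 := dsq_sub_pos hd hE
  have h4 : ((d : ℝ) ^ 2 - E ^ 2) ≠ 0 := by linarith
  have := Real.pi_ne_zero
  field_simp

/-- the primitive of `Im m_d` -/
def prim (d : ℕ) (E : ℝ) : ℝ :=
  (d : ℝ) / 2 * Real.arcsin (E / (2 * Real.sqrt ((d : ℝ) - 1))) -
    ((d : ℝ) - 2) / 2 * Real.arctan (((d : ℝ) - 2) * E / (d * Real.sqrt (4 * ((d : ℝ) - 1) - E ^ 2)))

theorem hasDerivAt_prim (hd : 3 ≤ d) {E : ℝ} (hE : E ^ 2 < 4 * ((d : ℝ) - 1)) :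
    HasDerivAt (prim d) (mdE d E).im E := by
  have hd' : (3 : ℝ) ≤ d := by exact_mod_cast hd
  have h0 := dsq_sub_pos hd hE
  set Q := Real.sqrt ((d : ℝ) - 1) with hQ
  have hQ2 : Q ^ 2 = (d : ℝ) - 1 := Real.sq_sqrt (by linarith)
  have hQp : 0 < Q := Real.sqrt_pos.2 (by linarith)
  set s := Real.sqrt (4 * ((d : ℝ) - 1) - E ^ 2) with hs
  have hs2 : s ^ 2 = 4 * ((d : ℝ) - 1) - E ^ 2 := Real.sq_sqrt (by linarith)
  have hsp : 0 < s := Real.sqrt_pos.2 (by linarith)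
  have hx2 : (E / (2 * Q)) ^ 2 < 1 := by
    rw [div_pow, mul_pow, hQ2, div_lt_one (by linarith)]
    linarith
  have hx1 : E / (2 * Q) ≠ -1 := by
    intro h
    rw [h] at hx2
    norm_num at hx2
  have hx3 : E / (2 * Q) ≠ 1 := by
    intro h
    rw [h] at hx2
    norm_num at hx2
  have hsq : Real.sqrt (1 - (E / (2 * Q)) ^ 2) = s / (2 * Q) := by
    rw [Real.sqrt_eq_iff_mul_self_eq (by linarith) (by positivity)]
    field_simp
    rw [hs2, hQ2]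
    ring
  have e1 : HasDerivAt (fun E : ℝ => Real.arcsin (E / (2 * Q))) (1 / s) E := by
    have h := (Real.hasDerivAt_arcsin hx1 hx3).comp E ((hasDerivAt_id E).div_const (2 * Q))
    rw [hsq] at h
    refine h.congr_deriv ?_
    field_simp
  have e2 : HasDerivAt (fun E : ℝ => Real.sqrt (4 * ((d : ℝ) - 1) - E ^ 2)) (-E / s) E := by
    have h := ((hasDerivAt_const E (4 * ((d : ℝ) - 1))).sub (hasDerivAt_pow 2 E)).sqrt
      (by simp only [Pi.sub_apply]; linarith)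
    refine h.congr_deriv ?_
    simp only [Pi.sub_apply]
    rw [← hs]
    field_simp
    push_cast
    ring
  have hds : (d : ℝ) * s ≠ 0 := by positivity
  have e3 : HasDerivAt (fun E : ℝ => ((d : ℝ) - 2) * E /
      (d * Real.sqrt (4 * ((d : ℝ) - 1) - E ^ 2)))
      (((d : ℝ) - 2) * (4 * ((d : ℝ) - 1)) / (d * s ^ 3)) E := by
    have h := ((hasDerivAt_id E).const_mul ((d : ℝ) - 2)).div (e2.const_mul (d : ℝ))
      (by rw [← hs]; exact hds)
    refine h.congr_deriv ?_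
    simp only [id]
    rw [← hs]
    have h5 : (d : ℝ) ≠ 0 := by positivity
    field_simp
    rw [hs2]
    ring
  have e4 := e3.arctan
  have e5 := (e1.const_mul ((d : ℝ) / 2)).sub (e4.const_mul (((d : ℝ) - 2) / 2))
  refine e5.congr_deriv ?_
  rw [im_mdE hd hE, ← hs]
  have h6 : 1 + (((d : ℝ) - 2) * E / (d * s)) ^ 2 =
      4 * ((d : ℝ) - 1) * ((d : ℝ) ^ 2 - E ^ 2) / (d ^ 2 * s ^ 2) := by
    have h5 : (d : ℝ) ≠ 0 := by positivity
    field_simp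
    rw [hs2]
    ring
  rw [h6]
  have h5 : (d : ℝ) ≠ 0 := by positivity
  have h7 : ((d : ℝ) ^ 2 - E ^ 2) ≠ 0 := by linarith
  have h8 : ((d : ℝ) - 1) ≠ 0 := by linarith
  field_simp
  rw [hs2]
  ring

theorem continuousOn_im_mdE (hd : 3 ≤ d) : ContinuousOn (fun E : ℝ => (mdE d E).im)
    {E : ℝ | E ^ 2 < 4 * ((d : ℝ) - 1)} := by
  refine ContinuousOn.congr (f := fun E : ℝ =>
    d * Real.sqrt (4 * ((d : ℝ) - 1) - E ^ 2) / (2 * ((d : ℝ) ^ 2 - E ^ 2))) ?_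
    fun E hE => im_mdE hd hE
  refine ContinuousOn.div (by fun_prop) (by fun_prop) fun E hE => ?_
  have := dsq_sub_pos hd hE
  linarith

theorem sq_lt_of_mem_Icc {r E a : ℝ} (hr : r < a) (hE : E ∈ Set.Icc (-r) r) : |E| < a :=
  lt_of_le_of_lt (abs_le.2 hE) hr

/-- The bulk carries the whole mass. -/
theorem exists_bulk_mass (hd : 3 ≤ d) {r₀ : ℝ} (h0 : 0 ≤ r₀)
    (hr₀ : r₀ < 2 * Real.sqrt ((d : ℝ) - 1)) {ε : ℝ} (hε : 0 < ε) :
    ∃ r, r₀ < r ∧ r < 2 * Real.sqrt ((d : ℝ) - 1) ∧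
      Real.pi - ε ≤ ∫ E in (-r)..r, (mdE d E).im := by
  have hd' : (3 : ℝ) ≤ d := by exact_mod_cast hd
  set Q := Real.sqrt ((d : ℝ) - 1) with hQ
  have hQ2 : Q ^ 2 = (d : ℝ) - 1 := Real.sq_sqrt (by linarith)
  have hQp : 0 < Q := Real.sqrt_pos.2 (by linarith)
  have hcont : ContinuousAt (fun r : ℝ => (d : ℝ) * Real.arcsin (r / (2 * Q)) -
      ((d : ℝ) - 2) * (Real.pi / 2)) (2 * Q) := by
    have : Continuous (fun r : ℝ => (d : ℝ) * Real.arcsin (r / (2 * Q)) -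
      ((d : ℝ) - 2) * (Real.pi / 2)) := by
      have := Real.continuous_arcsin
      fun_prop
    exact this.continuousAt
  have hval : (d : ℝ) * Real.arcsin (2 * Q / (2 * Q)) - ((d : ℝ) - 2) * (Real.pi / 2) = Real.pi := by
    rw [div_self (by positivity), Real.arcsin_one]
    ring
  have h1 : ∀ᶠ r in 𝓝[<] (2 * Q), Real.pi - ε < (d : ℝ) * Real.arcsin (r / (2 * Q)) -
      ((d : ℝ) - 2) * (Real.pi / 2) := by
    refine (hcont.tendsto.mono_left nhdsWithin_le_nhds).eventually (lt_mem_nhds ?_)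
    rw [hval]
    linarith
  have h2 : ∀ᶠ r in 𝓝[<] (2 * Q), r₀ < r ∧ r < 2 * Q := by
    filter_upwards [Ioo_mem_nhdsLT hr₀] with r hr using hr
  obtain ⟨r, hr1, hr2, hr3⟩ := (h1.and h2).exists
  refine ⟨r, hr2, hr3, ?_⟩
  have hmem : ∀ E ∈ Set.uIcc (-r) r, E ^ 2 < 4 * ((d : ℝ) - 1) := by
    intro E hE
    rw [Set.uIcc_of_le (by linarith)] at hE
    exact bulk_sq hd (sq_lt_of_mem_Icc hr3 hE)
  have h3 : ∫ E in (-r)..r, (mdE d E).im = prim d r - prim d (-r) := by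
    refine intervalIntegral.integral_eq_sub_of_hasDerivAt (fun E hE => hasDerivAt_prim hd
      (hmem E hE)) ?_
    exact ((continuousOn_im_mdE hd).mono hmem).intervalIntegrable
  have h4 : prim d (-r) = -prim d r := by
    unfold prim
    rw [neg_div, Real.arcsin_neg, mul_neg, neg_sq, mul_neg, neg_div, Real.arctan_neg]
    ring
  rw [h3, h4]
  unfold prim
  rw [← hQ]
  have h5 := (Real.arctan_lt_pi_div_two (((d : ℝ) - 2) * r /
    (d * Real.sqrt (4 * ((d : ℝ) - 1) - r ^ 2)))).le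
  have h6 : ((d : ℝ) - 2) * Real.arctan (((d : ℝ) - 2) * r /
    (d * Real.sqrt (4 * ((d : ℝ) - 1) - r ^ 2))) ≤ ((d : ℝ) - 2) * (Real.pi / 2) :=
    mul_le_mul_of_nonneg_left h5 (by linarith)
  linarith

end

end Vale.Agent.P156.H801
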