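import Vale.Agent.P156.H801.Mat

/-! Measurability in the energy; averages and probabilities; Markov inequalities in the energy. -/

namespace Vale.Agent.P156.H801

open Matrix Finset MeasureTheory Filter Topology ENNReal

noncomputable section

section meas

variable {V : Type*} [Fintype V] [DecidableEq V]

omit [Fintype V] in
theorem continuous_cutMat (A : Matrix V V ℝ) (D : Finset V) :
    Continuous fun z : ℂ => cutMat A D z := by
  refine continuous_matrix fun x y => ?_
  unfold cutMat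
  by_cases h : x ∈ D ∨ y ∈ D
  · simp only [h, if_true]
    exact continuous_const
  · simp only [h, if_false]
    by_cases hxy : x = y
    · simp only [hxy, if_true]
      fun_prop
    · simp only [hxy, if_false]
      fun_prop

theorem measurable_resD (A : Matrix V V ℝ) (D : Finset V) (x y : V) :
    Measurable fun z : ℂ => resD A D z x y := by
  have h : (fun z : ℂ => resD A D z x y) =
      fun z => ((cutMat A D z).det)⁻¹ * (cutMat A D z).adjugate x y := by
    funext z
    unfold resD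
    rw [Matrix.inv_def, Matrix.smul_apply, Ring.inverse_eq_inv', smul_eq_mul]
  rw [h]
  have hc := continuous_cutMat A D
  exact (hc.matrix_det.measurable.inv).mul ((hc.matrix_adjugate).matrix_elem x y).measurable

end meas

section avg

variable {α : Type*}

theorem measurable_avg (s : Finset α) {X : Type*} [MeasurableSpace X] {Φ : α → X → ℝ}
    (h : ∀ ω ∈ s, Measurable (Φ ω)) : Measurable fun E => avg s (fun ω => Φ ω E) := by
  unfold avg
  exact (Finset.measurable_fun_sum s h).div_const _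

theorem measurable_prob (s : Finset α) {X : Type*} [MeasurableSpace X] {P : α → X → Prop}
    (h : ∀ ω ∈ s, MeasurableSet {E | P ω E}) : Measurable fun E => prob s (fun ω => P ω E) := by
  classical
  unfold prob
  refine measurable_avg s fun ω hω => ?_
  exact Measurable.ite (h ω hω) measurable_const measurable_const

theorem avg_nonneg {s : Finset α} {Φ : α → ℝ} (h : ∀ ω ∈ s, 0 ≤ Φ ω) : 0 ≤ avg s Φ :=
  div_nonneg (Finset.sum_nonneg h) (Nat.cast_nonneg _)

theorem avg_mono {s : Finset α} {Φ Ψ : α → ℝ} (h : ∀ ω ∈ s, Φ ω ≤ Ψ ω) : avg s Φ ≤ avg s Ψ :=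
  div_le_div_of_nonneg_right (Finset.sum_le_sum h) (Nat.cast_nonneg _)

theorem avg_le_of_le {s : Finset α} {Φ : α → ℝ} {C : ℝ} (hC : 0 ≤ C) (h : ∀ ω ∈ s, Φ ω ≤ C) :
    avg s Φ ≤ C := by
  unfold avg
  rcases Nat.eq_zero_or_pos s.card with h0 | h0
  · rw [h0, Nat.cast_zero, _root_.div_zero]; exact hC
  · rw [div_le_iff₀ (by exact_mod_cast h0)]
    calc ∑ ω ∈ s, Φ ω ≤ ∑ _ω ∈ s, C := Finset.sum_le_sum h
      _ = C * s.card := by rw [Finset.sum_const, nsmul_eq_mul, mul_comm]

theorem prob_nonneg (s : Finset α) (P : α → Prop) : 0 ≤ prob s P := by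
  unfold prob
  exact avg_nonneg fun ω _ => by split_ifs <;> norm_num

theorem prob_le_one (s : Finset α) (P : α → Prop) : prob s P ≤ 1 := by
  unfold prob
  exact avg_le_of_le zero_le_one fun ω _ => by split_ifs <;> norm_num

theorem avg_add (s : Finset α) (Φ Ψ : α → ℝ) : avg s (fun ω => Φ ω + Ψ ω) = avg s Φ + avg s Ψ := by
  unfold avg
  rw [Finset.sum_add_distrib, add_div]

theorem avg_const_mul (s : Finset α) (c : ℝ) (Φ : α → ℝ) :
    avg s (fun ω => c * Φ ω) = c * avg s Φ := by
  unfold avg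
  rw [← Finset.mul_sum, mul_div_assoc]

/-- average of lower integrals -/
theorem lintegral_avg_le {X : Type*} [MeasurableSpace X] (μ : Measure X) (s : Finset α)
    {Φ : α → X → ℝ} (h0 : ∀ ω ∈ s, ∀ E, 0 ≤ Φ ω E) (hm : ∀ ω ∈ s, Measurable (Φ ω)) {C : ℝ}
    (hC : 0 ≤ C) (h : ∀ ω ∈ s, ∫⁻ E, ENNReal.ofReal (Φ ω E) ∂μ ≤ ENNReal.ofReal C) :
    ∫⁻ E, ENNReal.ofReal (avg s (fun ω => Φ ω E)) ∂μ ≤ ENNReal.ofReal C := by
  rcases Nat.eq_zero_or_pos s.card with hs | hs
  · unfold avg
    simp [hs]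
  have hs' : (0 : ℝ) < s.card := by exact_mod_cast hs
  have h1 : ∀ E, ENNReal.ofReal (avg s (fun ω => Φ ω E)) =
      (∑ ω ∈ s, ENNReal.ofReal (Φ ω E)) * ENNReal.ofReal ((s.card : ℝ)⁻¹) := by
    intro E
    unfold avg
    rw [div_eq_mul_inv, ENNReal.ofReal_mul (Finset.sum_nonneg fun ω hω => h0 ω hω E),
      ENNReal.ofReal_sum_of_nonneg fun ω hω => h0 ω hω E]
  simp only [h1]
  rw [lintegral_mul_const _ (Finset.measurable_fun_sum s fun ω hω => (hm ω hω).ennreal_ofReal),
    lintegral_finsetSum _ fun ω hω => (hm ω hω).ennreal_ofReal]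
  calc (∑ ω ∈ s, ∫⁻ E, ENNReal.ofReal (Φ ω E) ∂μ) * ENNReal.ofReal ((s.card : ℝ)⁻¹)
      ≤ (∑ _ω ∈ s, ENNReal.ofReal C) * ENNReal.ofReal ((s.card : ℝ)⁻¹) := by
        gcongr with ω hω
        exact h ω hω
    _ = ENNReal.ofReal C := by
        rw [Finset.sum_const, nsmul_eq_mul, ← ENNReal.ofReal_natCast,
          ← ENNReal.ofReal_mul (by positivity), ← ENNReal.ofReal_mul (by positivity)]
        congr 1
        field_simp

/-- probability of events of small volume -/
theorem lintegral_prob_le {X : Type*} [MeasurableSpace X] (μ : Measure X) (s : Finset α)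
    {P : α → X → Prop} (hm : ∀ ω ∈ s, MeasurableSet {E | P ω E}) {C : ℝ}
    (hC : 0 ≤ C) (h : ∀ ω ∈ s, μ {E | P ω E} ≤ ENNReal.ofReal C) :
    ∫⁻ E, ENNReal.ofReal (prob s (fun ω => P ω E)) ∂μ ≤ ENNReal.ofReal C := by
  classical
  unfold prob
  refine lintegral_avg_le μ _ (fun ω _ E => by split_ifs <;> norm_num)
    (fun ω hω => Measurable.ite (hm ω hω) measurable_const measurable_const) hC fun ω hω => ?_
  refine le_of_eq_of_le ?_ (h ω hω)
  rw [← lintegral_indicator_one (hm ω hω)]
  refine lintegral_congr fun E => ?_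
  rw [Set.indicator_apply]
  by_cases hE : P ω E
  · rw [if_pos hE, if_pos (show E ∈ {E | P ω E} from hE)]
    simp
  · rw [if_neg hE, if_neg (show E ∉ {E | P ω E} from hE)]
    simp

theorem avg_const {s : Finset α} (hs : s.Nonempty) (c : ℝ) : avg s (fun _ => c) = c := by
  unfold avg
  rw [Finset.sum_const, nsmul_eq_mul, mul_comm]
  have : (s.card : ℝ) ≠ 0 := by exact_mod_cast hs.card_ne_zero
  field_simp

theorem avg_empty (Φ : α → ℝ) : avg (∅ : Finset α) Φ = 0 := by
  unfold avg
  simp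

theorem avg_sub (s : Finset α) (Φ Ψ : α → ℝ) : avg s (fun ω => Φ ω - Ψ ω) = avg s Φ - avg s Ψ := by
  unfold avg
  rw [Finset.sum_sub_distrib, sub_div]

theorem integrable_avg {X : Type*} [MeasurableSpace X] {μ : Measure X} (s : Finset α)
    {Φ : α → X → ℝ} (h : ∀ ω ∈ s, Integrable (Φ ω) μ) :
    Integrable (fun E => avg s (fun ω => Φ ω E)) μ := by
  unfold avg
  exact (integrable_finsetSum s h).div_const _

theorem integral_avg {X : Type*} [MeasurableSpace X] {μ : Measure X} (s : Finset α)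
    {Φ : α → X → ℝ} (h : ∀ ω ∈ s, Integrable (Φ ω) μ) :
    ∫ E, avg s (fun ω => Φ ω E) ∂μ = avg s (fun ω => ∫ E, Φ ω E ∂μ) := by
  unfold avg
  rw [integral_div, integral_finsetSum s h]

end avg

end

end Vale.Agent.P156.H801
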