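import Vale.Agent.P156.H801.KMmass
import Vale.Agent.P156.R2.Spec

/-! C11: no loss of mass. From the soft local law the average of
`|Im G_vv(E + i L/n) - Im m_d(E)|` tends to zero. -/

namespace Vale.Agent.P156.H801

open Matrix Finset MeasureTheory Filter Topology

noncomputable section

/-! ### measurability of the local law event -/

theorem measurable_mE (d : ℕ) : Measurable (mE d) := by
  unfold mE
  fun_prop

theorem measurable_mdE (d : ℕ) : Measurable (mdE d) := by
  have := measurable_mE d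
  unfold mdE
  fun_prop

theorem measurable_KE (d K : ℕ) (a b : Fin K × Option (Fin d)) :
    Measurable fun E : ℝ => KE d E K a b := by
  have h1 := measurable_mE d
  have h2 := measurable_mdE d
  unfold KE
  split_ifs
  · fun_prop
  · exact measurable_const

theorem measurable_starMat {n d K : ℕ} (ω : SimpleGraph (Fin n) × StarPos n d K) (η : ℝ)
    (a b : Fin K × Option (Fin d)) :
    Measurable fun E : ℝ => starMat ω ((E : ℂ) + (η : ℂ) * Complex.I) a b := by
  unfold starMat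
  simp only [Matrix.submatrix_apply]
  have h : Measurable fun E : ℝ => (E : ℂ) + (η : ℂ) * Complex.I := by fun_prop
  exact (measurable_resD _ _ _ _).comp h

theorem measurableSet_LL {n d K : ℕ} (ω : SimpleGraph (Fin n) × StarPos n d K) (η ε : ℝ) :
    MeasurableSet {E : ℝ | ∃ x y, ε < ‖starMat ω ((E : ℂ) + (η : ℂ) * Complex.I) x y -
      KE d E K x y‖} := by
  have : {E : ℝ | ∃ x y, ε < ‖starMat ω ((E : ℂ) + (η : ℂ) * Complex.I) x y - KE d E K x y‖} =
      ⋃ x, ⋃ y, {E : ℝ | ε < ‖starMat ω ((E : ℂ) + (η : ℂ) * Complex.I) x y - KE d E K x y‖} := by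
    ext E
    simp
  rw [this]
  exact MeasurableSet.iUnion fun x => MeasurableSet.iUnion fun y =>
    measurableSet_lt measurable_const ((measurable_starMat ω η x y).sub (measurable_KE d K x y)).norm

theorem measurable_LL (n d K : ℕ) (η ε : ℝ) :
    Measurable fun E : ℝ => prob (WW n d K) (fun ω => ∃ x y,
      ε < ‖starMat ω ((E : ℂ) + (η : ℂ) * Complex.I) x y - KE d E K x y‖) :=
  measurable_prob _ fun ω _ => measurableSet_LL ω η ε

/-! ### the diagonal resolvent entry -/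

/-- `Im G_vv(E + i η)` -/
def Xim {n : ℕ} (G : SimpleGraph (Fin n)) (v : Fin n) (η E : ℝ) : ℝ :=
  (resD (adj G) ∅ ((E : ℂ) + (η : ℂ) * Complex.I) v v).im

theorem Xim_nonneg {n : ℕ} (G : SimpleGraph (Fin n)) (v : Fin n) {η : ℝ} (hη : 0 < η) (E : ℝ) :
    0 ≤ Xim G v η E := im_resD_diag_nonneg (adj_isHermitian G) ∅ E hη v

theorem Xim_integral {n : ℕ} (G : SimpleGraph (Fin n)) (v : Fin n) {η : ℝ} (hη : 0 < η) :
    Integrable (Xim G v η) ∧ ∫ E, Xim G v η E = Real.pi :=
  integral_im_resD (adj_isHermitian G) hη (Finset.notMem_empty v)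

theorem measurable_Xim {n : ℕ} (G : SimpleGraph (Fin n)) (v : Fin n) (η : ℝ) :
    Measurable (Xim G v η) := by
  unfold Xim
  have h : Measurable fun E : ℝ => (E : ℂ) + (η : ℂ) * Complex.I := by fun_prop
  exact Complex.measurable_im.comp ((measurable_resD _ _ _ _).comp h)

theorem cutMat_empty {V : Type*} [Fintype V] [DecidableEq V] (A : Matrix V V ℝ) (z : ℂ) :
    cutMat A ∅ z = A.map Complex.ofReal - z • (1 : Matrix V V ℂ) := by
  ext x y
  simp only [cutMat, Finset.notMem_empty, or_self, if_false, Matrix.sub_apply, Matrix.map_apply,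
    Matrix.smul_apply, Matrix.one_apply, smul_eq_mul]
  split_ifs <;> simp

theorem Xim_eq {n : ℕ} (G : SimpleGraph (Fin n)) (v : Fin n) {η : ℝ} (hη : 0 < η) (E : ℝ) :
    Xim G v η E = ∑ i, (ev (adj_isHermitian G) i v) ^ 2 * pk η (eig G i - E) := by
  have hz : ((E : ℂ) + η * Complex.I).im ≠ 0 := by simp [hη.ne']
  have h1 : resD (adj G) ∅ ((E : ℂ) + (η : ℂ) * Complex.I) v v =
      rs (adj G) ((E : ℂ) + (η : ℂ) * Complex.I) v v := by
    unfold resD rs
    rw [cutMat_empty]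
  unfold Xim
  rw [h1, rs_apply (adj_isHermitian G) (sub_ne_zero_of_im _ hz), Complex.im_sum]
  refine Finset.sum_congr rfl fun i _ => ?_
  rw [im_div', sq]
  rfl

/-- the event of the local law controls the diagonal entry -/
theorem Xim_sub_le {n d : ℕ} (ω : SimpleGraph (Fin n) × StarPos n d 1) (η ε : ℝ) (E : ℝ)
    (h : ¬ ∃ x y, ε < ‖starMat ω ((E : ℂ) + (η : ℂ) * Complex.I) x y - KE d E 1 x y‖) :
    |Xim ω.1 (ω.2.1 0) η E - (mdE d E).im| ≤ ε := by
  push Not at h
  have h1 := h (0, none) (0, none)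
  have h2 : starMat ω ((E : ℂ) + (η : ℂ) * Complex.I) (0, none) (0, none) -
      KE d E 1 (0, none) (0, none) =
      resD (adj ω.1) ∅ ((E : ℂ) + (η : ℂ) * Complex.I) (ω.2.1 0) (ω.2.1 0) - mdE d E := by
    unfold KE starDist
    simp [starMat, pos]
  rw [h2] at h1
  refine le_trans ?_ h1
  have h3 := Complex.abs_im_le_norm
    (resD (adj ω.1) ∅ ((E : ℂ) + (η : ℂ) * Complex.I) (ω.2.1 0) (ω.2.1 0) - mdE d E)
  rw [Complex.sub_im] at h3
  exact h3

/-- pointwise bound in the energy -/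
theorem avg_abs_le {n d : ℕ} (hd : 3 ≤ d) (hne : (WW n d 1).Nonempty) {η ε : ℝ} (hη : 0 < η)
    (hε : 0 ≤ ε) {E : ℝ} (hE : E ^ 2 < 4 * ((d : ℝ) - 1)) :
    avg (WW n d 1) (fun ω => |Xim ω.1 (ω.2.1 0) η E - (mdE d E).im|) ≤
      2 * ε + 2 * (d : ℝ) ^ 2 * prob (WW n d 1) (fun ω => ∃ x y,
        ε < ‖starMat ω ((E : ℂ) + (η : ℂ) * Complex.I) x y - KE d E 1 x y‖) +
      avg (WW n d 1) (fun ω => Xim ω.1 (ω.2.1 0) η E) - (mdE d E).im := by
  classical
  have hg0 := im_mdE_nonneg hd hE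
  have hg1 := im_mdE_le hd hE
  have key : avg (WW n d 1) (fun ω => |Xim ω.1 (ω.2.1 0) η E - (mdE d E).im|) ≤
      avg (WW n d 1) (fun ω => (2 * ε + (2 * (d : ℝ) ^ 2) * (if ∃ x y,
        ε < ‖starMat ω ((E : ℂ) + (η : ℂ) * Complex.I) x y - KE d E 1 x y‖ then 1 else 0) +
        Xim ω.1 (ω.2.1 0) η E) - (mdE d E).im) := by
    refine avg_mono fun ω _ => ?_
    have hX := Xim_nonneg ω.1 (ω.2.1 0) hη E
    by_cases h : ∃ x y, ε < ‖starMat ω ((E : ℂ) + (η : ℂ) * Complex.I) x y - KE d E 1 x y‖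
    · rw [if_pos h, abs_le]
      constructor <;> nlinarith
    · have := Xim_sub_le ω η ε E h
      rw [abs_le] at this
      rw [if_neg h, abs_le]
      constructor <;> nlinarith [this.1, this.2]
  refine key.trans (le_of_eq ?_)
  rw [avg_sub, avg_add, avg_add, avg_const hne, avg_const hne, avg_const_mul]
  unfold prob
  congr!

theorem intervalIntegrable_of_bdd {F : ℝ → ℝ} (hm : Measurable F) {C : ℝ} (h : ∀ x, |F x| ≤ C)
    (a b : ℝ) : IntervalIntegrable F volume a b := by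
  rw [intervalIntegrable_iff]
  exact Measure.integrableOn_of_bounded (M := C) (by simp) hm.aestronglyMeasurable
    (Eventually.of_forall fun x => by rw [Real.norm_eq_abs]; exact h x)

theorem intervalIntegrable_prob_LL (n d K : ℕ) (η ε a b : ℝ) :
    IntervalIntegrable (fun E : ℝ => prob (WW n d K) (fun ω => ∃ x y,
      ε < ‖starMat ω ((E : ℂ) + (η : ℂ) * Complex.I) x y - KE d E K x y‖)) volume a b :=
  intervalIntegrable_of_bdd (measurable_LL n d K η ε) (C := 1) (fun x => by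
    rw [abs_of_nonneg (prob_nonneg _ _)]; exact prob_le_one _ _) a b

theorem integrable_avg_X (n d : ℕ) {η : ℝ} (hη : 0 < η) :
    Integrable (fun E => avg (WW n d 1) (fun ω => Xim ω.1 (ω.2.1 0) η E)) :=
  integrable_avg _ fun ω _ => (Xim_integral ω.1 (ω.2.1 0) hη).1

theorem integral_avg_X_le (n d : ℕ) {η : ℝ} (hη : 0 < η) (a b : ℝ) (hab : a ≤ b) :
    ∫ E in a..b, avg (WW n d 1) (fun ω => Xim ω.1 (ω.2.1 0) η E) ≤ Real.pi := by
  rw [intervalIntegral.integral_of_le hab]
  refine (setIntegral_le_integral (integrable_avg_X n d hη)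
    (Eventually.of_forall fun E => avg_nonneg fun ω _ => Xim_nonneg _ _ hη _)).trans ?_
  rw [integral_avg _ fun ω _ => (Xim_integral ω.1 (ω.2.1 0) hη).1]
  exact avg_le_of_le Real.pi_pos.le fun ω _ => (Xim_integral ω.1 (ω.2.1 0) hη).2.le

theorem measurable_avg_abs (n d : ℕ) (η : ℝ) :
    Measurable fun E => avg (WW n d 1) (fun ω => |Xim ω.1 (ω.2.1 0) η E - (mdE d E).im|) := by
  refine measurable_avg _ fun ω _ => ?_
  have h1 := measurable_Xim ω.1 (ω.2.1 0) η
  have h2 := measurable_mdE d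
  exact continuous_abs.measurable.comp (h1.sub (Complex.measurable_im.comp h2))

/-- integrated bound -/
theorem integral_avg_abs_le {n d : ℕ} (hd : 3 ≤ d) (hne : (WW n d 1).Nonempty) {η ε r : ℝ}
    (hη : 0 < η) (hε : 0 ≤ ε) (hr : 0 ≤ r) (hr' : r < 2 * Real.sqrt ((d : ℝ) - 1)) :
    IntervalIntegrable (fun E => avg (WW n d 1) (fun ω =>
      |Xim ω.1 (ω.2.1 0) η E - (mdE d E).im|)) volume (-r) r ∧
    ∫ E in (-r)..r, avg (WW n d 1) (fun ω => |Xim ω.1 (ω.2.1 0) η E - (mdE d E).im|) ≤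
      4 * r * ε + 2 * (d : ℝ) ^ 2 * (∫ E in (-r)..r, prob (WW n d 1) (fun ω => ∃ x y,
        ε < ‖starMat ω ((E : ℂ) + (η : ℂ) * Complex.I) x y - KE d E 1 x y‖)) +
      Real.pi - ∫ E in (-r)..r, (mdE d E).im := by
  have hle : -r ≤ r := by linarith
  have hmem : ∀ E ∈ Set.Icc (-r) r, E ^ 2 < 4 * ((d : ℝ) - 1) := fun E hE =>
    bulk_sq hd (sq_lt_of_mem_Icc hr' hE)
  have hg : IntervalIntegrable (fun E : ℝ => (mdE d E).im) volume (-r) r := by
    refine ((continuousOn_im_mdE hd).mono fun E hE => ?_).intervalIntegrable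
    rw [Set.uIcc_of_le hle] at hE
    exact hmem E hE
  have hX : IntervalIntegrable (fun E => avg (WW n d 1) (fun ω => Xim ω.1 (ω.2.1 0) η E))
      volume (-r) r := (integrable_avg_X n d hη).intervalIntegrable
  have hp := intervalIntegrable_prob_LL n d 1 η ε (-r) r
  have hR : IntervalIntegrable (fun E : ℝ => 2 * ε + 2 * (d : ℝ) ^ 2 * prob (WW n d 1) (fun ω =>
      ∃ x y, ε < ‖starMat ω ((E : ℂ) + (η : ℂ) * Complex.I) x y - KE d E 1 x y‖) +
      avg (WW n d 1) (fun ω => Xim ω.1 (ω.2.1 0) η E) - (mdE d E).im) volume (-r) r :=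
    (((intervalIntegrable_const).add (hp.const_mul _)).add hX).sub hg
  have hL : IntervalIntegrable (fun E => avg (WW n d 1) (fun ω =>
      |Xim ω.1 (ω.2.1 0) η E - (mdE d E).im|)) volume (-r) r := by
    rw [intervalIntegrable_iff, Set.uIoc_of_le hle]
    rw [intervalIntegrable_iff, Set.uIoc_of_le hle] at hR
    refine Integrable.mono' hR (measurable_avg_abs n d η).aestronglyMeasurable ?_
    rw [ae_restrict_iff' measurableSet_Ioc]
    refine Eventually.of_forall fun E hE => ?_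
    rw [Real.norm_eq_abs, abs_of_nonneg (avg_nonneg fun ω _ => abs_nonneg _)]
    exact avg_abs_le hd hne hη hε (hmem E ⟨hE.1.le, hE.2⟩)
  refine ⟨hL, (intervalIntegral.integral_mono_on hle hL hR fun E hE =>
    avg_abs_le hd hne hη hε (hmem E hE)).trans ?_⟩
  rw [intervalIntegral.integral_sub (((intervalIntegrable_const).add (hp.const_mul _)).add hX) hg,
    intervalIntegral.integral_add ((intervalIntegrable_const).add (hp.const_mul _)) hX,
    intervalIntegral.integral_add intervalIntegrable_const (hp.const_mul _),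
    intervalIntegral.integral_const, intervalIntegral.integral_const_mul, smul_eq_mul]
  have := integral_avg_X_le n d hη (-r) r hle
  linarith

theorem lint_Icc_eq {F : ℝ → ℝ} (h0 : ∀ x, 0 ≤ F x) {a b : ℝ} (hab : a ≤ b)
    (hi : IntervalIntegrable F volume a b) :
    ∫⁻ E in Set.Icc a b, ENNReal.ofReal (F E) = ENNReal.ofReal (∫ E in a..b, F E) := by
  rw [intervalIntegral.integral_of_le hab, ← integral_Icc_eq_integral_Ioc]
  rw [intervalIntegrable_iff, Set.uIoc_of_le hab] at hi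
  rw [ofReal_integral_eq_lintegral_ofReal ?_ (Eventually.of_forall fun x => h0 x)]
  exact (integrableOn_Icc_iff_integrableOn_Ioc (by finiteness)).2 hi

theorem admissible_lt {d : ℕ} : ∀ᶠ n in admissible d, d < n := by
  unfold admissible
  exact (eventually_inf_principal.2 (Eventually.of_forall fun n hn => hn.1))

theorem admissible_atTop {d : ℕ} {p : ℕ → Prop} (h : ∀ᶠ n in atTop, p n) :
    ∀ᶠ n in admissible d, p n := h.filter_mono inf_le_left

/-- **C11 (no loss of mass)** -/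
theorem no_loss {d : ℕ} (hd : 3 ≤ d) (h : SpecLL d) {r : ℝ} (hr : 0 < r)
    (hr' : r < 2 * Real.sqrt ((d : ℝ) - 1)) {ε : ℝ} (hε : 0 < ε) :
    ∃ L₀ > 0, ∀ L ≥ L₀, ∀ᶠ n in admissible d, ∫⁻ E in Set.Icc (-r) r, ENNReal.ofReal
      (avg (WW n d 1) (fun ω => |Xim ω.1 (ω.2.1 0) (L / n) E - (mdE d E).im|)) ≤
        ENNReal.ofReal ε := by
  have hd' : (3 : ℝ) ≤ d := by exact_mod_cast hd
  obtain ⟨s, hs1, hs2, hs3⟩ := exists_bulk_mass hd hr.le hr' (half_pos hε)
  have hs0 : 0 < s := hr.trans hs1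
  set ε₁ : ℝ := ε / (2 * (4 * s + 2 * (d : ℝ) ^ 2)) with hε₁
  have hε₁p : 0 < ε₁ := by positivity
  obtain ⟨L₀, hL₀⟩ := h (-s) s (by linarith) (by linarith) hs2 1 ε₁ hε₁p
  refine ⟨max L₀ 1, by positivity, fun L hL => ?_⟩
  have hLp : 0 < L := lt_of_lt_of_le one_pos ((le_max_right _ _).trans hL)
  filter_upwards [hL₀ L ((le_max_left _ _).trans hL), admissible_lt] with n hn hdn
  have hn0 : (0 : ℝ) < n := by exact_mod_cast (Nat.zero_le d).trans_lt hdn
  have hη : 0 < L / (n : ℝ) := by positivity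
  rcases (WW n d 1).eq_empty_or_nonempty with hW | hW
  · rw [hW]
    simp [avg_empty]
  · obtain ⟨hi, hb⟩ := integral_avg_abs_le hd hW hη hε₁p.le hs0.le hs2
    calc ∫⁻ E in Set.Icc (-r) r, ENNReal.ofReal
          (avg (WW n d 1) (fun ω => |Xim ω.1 (ω.2.1 0) (L / n) E - (mdE d E).im|))
        ≤ ∫⁻ E in Set.Icc (-s) s, ENNReal.ofReal
          (avg (WW n d 1) (fun ω => |Xim ω.1 (ω.2.1 0) (L / n) E - (mdE d E).im|)) :=
          lintegral_mono_set (Set.Icc_subset_Icc (by linarith) (by linarith))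
      _ = ENNReal.ofReal (∫ E in (-s)..s, avg (WW n d 1)
          (fun ω => |Xim ω.1 (ω.2.1 0) (L / n) E - (mdE d E).im|)) :=
          lint_Icc_eq (fun E => avg_nonneg fun ω _ => abs_nonneg _) (by linarith) hi
      _ ≤ ENNReal.ofReal ε := by
          refine ENNReal.ofReal_le_ofReal (hb.trans ?_)
          have h5 : (4 * s + 2 * (d : ℝ) ^ 2) * ε₁ = ε / 2 := by
            rw [hε₁]
            field_simp
          have h6 : 2 * (d : ℝ) ^ 2 * (∫ E in (-s)..s, prob (WW n d 1) (fun ω => ∃ x y,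
              ε₁ < ‖starMat ω ((E : ℂ) + ((L / n : ℝ) : ℂ) * Complex.I) x y - KE d E 1 x y‖)) ≤
              2 * (d : ℝ) ^ 2 * ε₁ := mul_le_mul_of_nonneg_left hn (by positivity)
          linarith

end

end Vale.Agent.P156.H801
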