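import Vale.Agent.P156.H801.Meas

/-! T1, T1', T2, T3 and non-singularity: bounds in the energy, uniform in `n`. -/

namespace Vale.Agent.P156.H801

open Matrix Finset MeasureTheory Filter Topology ENNReal

noncomputable section

/-- Markov inequality in the energy -/
theorem markov_lint {F : ℝ → ℝ} (hm : Measurable F) {S : Set ℝ} {C ε : ℝ}
    (h : ∫⁻ E in S, ENNReal.ofReal (F E) ≤ ENNReal.ofReal C) (hε : 0 < ε) :
    volume {E | E ∈ S ∧ ε < F E} ≤ ENNReal.ofReal (C / ε) := by
  have h1 : ENNReal.ofReal ε * (volume.restrict S) {E | ENNReal.ofReal ε ≤ ENNReal.ofReal (F E)} ≤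
      ENNReal.ofReal C :=
    (mul_meas_ge_le_lintegral₀ hm.ennreal_ofReal.aemeasurable _).trans h
  have h2 : volume {E | E ∈ S ∧ ε < F E} ≤
      (volume.restrict S) {E | ENNReal.ofReal ε ≤ ENNReal.ofReal (F E)} := by
    rw [Measure.restrict_apply (measurableSet_le measurable_const hm.ennreal_ofReal)]
    refine measure_mono fun E hE => ⟨ENNReal.ofReal_le_ofReal hE.2.le, hE.1⟩
  have hε' : ENNReal.ofReal ε ≠ 0 := by
    rw [Ne, ENNReal.ofReal_eq_zero, not_le]
    exact hε
  rw [ENNReal.ofReal_div_of_pos hε, ENNReal.le_div_iff_mul_le (Or.inl hε')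
    (Or.inl ENNReal.ofReal_ne_top), mul_comm]
  refine le_trans ?_ h1
  gcongr

theorem markov_univ {F : ℝ → ℝ} (hm : Measurable F) {C ε : ℝ}
    (h : ∫⁻ E, ENNReal.ofReal (F E) ≤ ENNReal.ofReal C) (hε : 0 < ε) :
    volume {E | ε < F E} ≤ ENNReal.ofReal (C / ε) := by
  have := markov_lint (S := Set.univ) hm (by rwa [Measure.restrict_univ]) hε
  simpa using this

variable {n : ℕ}

theorem xx_eq (E : ℝ) (G : SimpleGraph (Fin n)) (i : Fin n) :
    xx E G i = (n : ℝ) * (eig G i - E) := rfl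

/-- one eigenvalue, far tail -/
theorem lint_far {n : ℝ} (hn : 0 < n) (lam : ℝ) {B : ℝ} (hB : 0 < B) :
    ∫⁻ E : ℝ, ENNReal.ofReal (if B < |n * (lam - E)| then ((n * (lam - E)) ^ 2)⁻¹ else 0) ≤
      ENNReal.ofReal (2 * Real.pi / B / n) := by
  have h1 : ∀ E : ℝ, (if B < |n * (lam - E)| then ((n * (lam - E)) ^ 2)⁻¹ else 0) ≤
      2 / (n * B) * pk (B / n) (lam - E) := by
    intro E
    split_ifs with h
    · set t := lam - E with ht
      have h2 : B ^ 2 < (n * t) ^ 2 := by
        rw [← sq_abs (n * t)]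
        exact pow_lt_pow_left₀ h hB.le (by norm_num)
      have h3 : 0 < (n * t) ^ 2 := lt_of_le_of_lt (sq_nonneg B) h2
      unfold pk
      rw [div_mul_div_comm, inv_le_iff_one_le_mul₀ h3, div_mul_eq_mul_div, le_div_iff₀ (by positivity)]
      have h4 : n * B * (t ^ 2 + (B / n) ^ 2) = B / n * ((n * t) ^ 2 + B ^ 2) := by
        field_simp
      rw [one_mul, h4]
      have h5 : 0 < B / n := by positivity
      nlinarith
    · exact mul_nonneg (by positivity) (pk_nonneg (by positivity) _)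
  calc _ ≤ ∫⁻ E : ℝ, ENNReal.ofReal (2 / (n * B)) * ENNReal.ofReal (pk (B / n) (lam - E)) := by
        refine lintegral_mono fun E => ?_
        rw [← ENNReal.ofReal_mul (by positivity)]
        exact ENNReal.ofReal_le_ofReal (h1 E)
    _ = ENNReal.ofReal (2 * Real.pi / B / n) := by
        rw [lintegral_const_mul _ (by have := measurable_pk (B / n); fun_prop),
          lint_pk_sub (by positivity), ← ENNReal.ofReal_mul (by positivity)]
        congr 1
        field_simp

/-- one eigenvalue, window -/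
theorem lint_near {n : ℝ} (hn : 0 < n) (lam : ℝ) (B : ℝ) :
    ∫⁻ E : ℝ, ENNReal.ofReal (if |n * (lam - E)| ≤ B then 1 else 0) ≤
      ENNReal.ofReal (2 * B / n) := by
  have hms : MeasurableSet {E : ℝ | |n * (lam - E)| ≤ B} :=
    measurableSet_le (by fun_prop) measurable_const
  have h1 : ∀ E : ℝ, ENNReal.ofReal (if |n * (lam - E)| ≤ B then 1 else 0) =
      {E : ℝ | |n * (lam - E)| ≤ B}.indicator 1 E := by
    intro E
    rw [Set.indicator_apply]
    simp only [Set.mem_ofPred_eq]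
    split_ifs <;> simp
  simp only [h1]
  rw [lintegral_indicator_one hms]
  have hsub : {E : ℝ | |n * (lam - E)| ≤ B} ⊆ Set.Icc (lam - B / n) (lam + B / n) := by
    intro E hE
    have h2 : |n * (lam - E)| ≤ B := hE
    rw [abs_mul, abs_of_pos hn, mul_comm, ← le_div_iff₀ hn, abs_le] at h2
    exact ⟨by linarith [h2.2], by linarith [h2.1]⟩
  refine (measure_mono hsub).trans ?_
  rw [Real.volume_Icc]
  refine ENNReal.ofReal_le_ofReal (le_of_eq ?_)
  ring

/-- sum over the spectrum -/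
theorem lint_sum_le {ι : Type*} [Fintype ι] {F : ι → ℝ → ℝ} (h0 : ∀ i E, 0 ≤ F i E)
    (hm : ∀ i, Measurable (F i)) {C : ℝ}
    (h : ∀ i, ∫⁻ E, ENNReal.ofReal (F i E) ≤ ENNReal.ofReal (C / Fintype.card ι)) :
    ∫⁻ E, ENNReal.ofReal (∑ i, F i E) ≤ ENNReal.ofReal C := by
  have h1 : ∀ E, ENNReal.ofReal (∑ i, F i E) = ∑ i, ENNReal.ofReal (F i E) := fun E =>
    ENNReal.ofReal_sum_of_nonneg fun i _ => h0 i E
  simp only [h1]
  rw [lintegral_finsetSum _ fun i _ => (hm i).ennreal_ofReal]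
  refine (Finset.sum_le_sum fun i _ => h i).trans ?_
  rw [Finset.sum_const, Finset.card_univ, nsmul_eq_mul]
  rcases Nat.eq_zero_or_pos (Fintype.card ι) with h2 | h2
  · rw [h2]
    simp
  · rw [← ENNReal.ofReal_natCast, ← ENNReal.ofReal_mul (by positivity)]
    refine ENNReal.ofReal_le_ofReal (le_of_eq ?_)
    have : (Fintype.card ι : ℝ) ≠ 0 := by positivity
    field_simp

theorem measurable_far (G : SimpleGraph (Fin n)) (i : Fin n) (B : ℝ) :
    Measurable fun E : ℝ => if B < |xx E G i| then (xx E G i ^ 2)⁻¹ else 0 := by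
  unfold xx
  exact Measurable.ite (measurableSet_lt measurable_const (by fun_prop)) (by fun_prop)
    measurable_const

theorem measurable_near (G : SimpleGraph (Fin n)) (i : Fin n) (B : ℝ) :
    Measurable fun E : ℝ => if |xx E G i| ≤ B then (1 : ℝ) else 0 := by
  unfold xx
  exact Measurable.ite (measurableSet_le (by fun_prop) measurable_const) measurable_const
    measurable_const

theorem lint_T1 (G : SimpleGraph (Fin n)) {B : ℝ} (hB : 0 < B) :
    ∫⁻ E : ℝ, ENNReal.ofReal (∑ i, if B < |xx E G i| then (xx E G i ^ 2)⁻¹ else 0) ≤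
      ENNReal.ofReal (2 * Real.pi / B) := by
  refine lint_sum_le (fun i E => by split_ifs <;> positivity) (fun i => measurable_far G i B)
    fun i => ?_
  rw [Fintype.card_fin]
  have hn : (0 : ℝ) < n := by exact_mod_cast Fin.pos i
  exact lint_far hn (eig G i) hB

theorem lint_T1' (G : SimpleGraph (Fin n)) (B : ℝ) :
    ∫⁻ E : ℝ, ENNReal.ofReal (∑ i, if |xx E G i| ≤ B then 1 else 0) ≤
      ENNReal.ofReal (2 * B) := by
  refine lint_sum_le (fun i E => by split_ifs <;> positivity) (fun i => measurable_near G i B)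
    fun i => ?_
  rw [Fintype.card_fin]
  have hn : (0 : ℝ) < n := by exact_mod_cast Fin.pos i
  exact lint_near hn (eig G i) B

/-- **T1**, integrated -/
theorem T1_lint (n d : ℕ) {B : ℝ} (hB : 0 < B) :
    ∫⁻ E : ℝ, ENNReal.ofReal (avg (regularGraphs n d)
      (fun G => ∑ i, if B < |xx E G i| then (xx E G i ^ 2)⁻¹ else 0)) ≤
      ENNReal.ofReal (2 * Real.pi / B) :=
  lintegral_avg_le volume _ (fun G _ E => Finset.sum_nonneg fun i _ => by split_ifs <;> positivity)
    (fun G _ => Finset.measurable_fun_sum _ fun i _ => measurable_far G i B) (by positivity)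
    fun G _ => lint_T1 G hB

/-- **T1'**, integrated -/
theorem T1'_lint (n d : ℕ) {B : ℝ} (hB : 0 ≤ B) :
    ∫⁻ E : ℝ, ENNReal.ofReal (avg (regularGraphs n d)
      (fun G => ∑ i, if |xx E G i| ≤ B then 1 else 0)) ≤ ENNReal.ofReal (2 * B) :=
  lintegral_avg_le volume _ (fun G _ E => Finset.sum_nonneg fun i _ => by split_ifs <;> positivity)
    (fun G _ => Finset.measurable_fun_sum _ fun i _ => measurable_near G i B) (by positivity)
    fun G _ => lint_T1' G B

theorem measurableSet_T2 (G : SimpleGraph (Fin n)) (δ : ℝ) :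
    MeasurableSet {E : ℝ | ∃ i, |xx E G i| ≤ δ} := by
  have : {E : ℝ | ∃ i, |xx E G i| ≤ δ} = ⋃ i, {E : ℝ | |xx E G i| ≤ δ} := by
    ext E
    simp
  rw [this]
  refine MeasurableSet.iUnion fun i => measurableSet_le ?_ measurable_const
  unfold xx
  fun_prop

theorem measurable_T2 (n d : ℕ) (δ : ℝ) :
    Measurable fun E : ℝ => prob (regularGraphs n d) (fun G => ∃ i, |xx E G i| ≤ δ) :=
  measurable_prob _ fun G _ => measurableSet_T2 G δ

/-- **T2**, integrated -/
theorem T2_lint (n d : ℕ) {δ : ℝ} (hδ : 0 ≤ δ) :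
    ∫⁻ E : ℝ, ENNReal.ofReal (prob (regularGraphs n d) (fun G => ∃ i, |xx E G i| ≤ δ)) ≤
      ENNReal.ofReal (2 * δ) := by
  classical
  refine (lintegral_mono fun E => ENNReal.ofReal_le_ofReal ?_).trans (T1'_lint n d hδ)
  unfold prob
  refine avg_mono fun G _ => ?_
  split_ifs with h
  · obtain ⟨i, hi⟩ := h
    have := Finset.single_le_sum (f := fun i => if |xx E G i| ≤ δ then (1 : ℝ) else 0)
      (fun i _ => by positivity) (Finset.mem_univ i)
    simp only [hi, if_true] at this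
    exact this
  · exact Finset.sum_nonneg fun i _ => by positivity

theorem measurableSet_T3 {n d K : ℕ} (ω : SimpleGraph (Fin n) × StarPos n d K) (B : ℝ) :
    MeasurableSet {E : ℝ | ∃ a b, B < ‖leadMat ω (E : ℂ) a b‖} := by
  have : {E : ℝ | ∃ a b, B < ‖leadMat ω (E : ℂ) a b‖} =
      ⋃ a, ⋃ b, {E : ℝ | B < ‖leadMat ω (E : ℂ) a b‖} := by
    ext E
    simp
  rw [this]
  refine MeasurableSet.iUnion fun a => MeasurableSet.iUnion fun b =>
    measurableSet_lt measurable_const ?_
  unfold leadMat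
  simp only [Matrix.submatrix_apply]
  exact ((measurable_resD _ _ _ _).comp Complex.measurable_ofReal).norm

theorem measurable_T3 (n d K : ℕ) (B : ℝ) :
    Measurable fun E : ℝ => prob (WW n d K) (fun ω => ∃ a b, B < ‖leadMat ω (E : ℂ) a b‖) :=
  measurable_prob _ fun ω _ => measurableSet_T3 ω B

/-- **T3**, integrated -/
theorem T3_lint (n d K : ℕ) {B : ℝ} (hB : 1 ≤ B) :
    ∫⁻ E : ℝ, ENNReal.ofReal (prob (WW n d K) (fun ω => ∃ a b, B < ‖leadMat ω (E : ℂ) a b‖)) ≤
      ENNReal.ofReal (160 * ((K * d) * (K * d)) / B) := by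
  refine lintegral_prob_le volume _ (fun ω _ => measurableSet_T3 ω B) (by positivity) fun ω _ => ?_
  have hsub : {E : ℝ | ∃ a b, B < ‖leadMat ω (E : ℂ) a b‖} ⊆
      ⋃ p : (Fin K × Fin d) × (Fin K × Fin d), {E : ℝ | B < ‖resD (adj ω.1) (centres ω) (E : ℂ)
        (lead ω p.1) (lead ω p.2)‖} := by
    rintro E ⟨a, b, hab⟩
    exact Set.mem_iUnion.2 ⟨(a, b), hab⟩
  calc volume {E : ℝ | ∃ a b, B < ‖leadMat ω (E : ℂ) a b‖} ≤ _ := measure_mono hsub
    _ ≤ ∑ p : (Fin K × Fin d) × (Fin K × Fin d), volume {E : ℝ | B < ‖resD (adj ω.1) (centres ω)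
        (E : ℂ) (lead ω p.1) (lead ω p.2)‖} := measure_iUnion_fintype_le _ _
    _ ≤ ∑ _p : (Fin K × Fin d) × (Fin K × Fin d), ENNReal.ofReal (160 / B) :=
        Finset.sum_le_sum fun p _ => weak_resD_real (adj_isHermitian ω.1) _ _ _ hB
    _ = ENNReal.ofReal (160 * ((K * d) * (K * d)) / B) := by
        rw [Finset.sum_const, Finset.card_univ, nsmul_eq_mul]
        simp only [Fintype.card_prod, Fintype.card_fin]
        rw [← ENNReal.ofReal_natCast, ← ENNReal.ofReal_mul (by positivity)]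
        congr 1
        push_cast
        ring

/-- the exceptional energies form a null set -/
theorem nonsing_null (n d : ℕ) :
    volume {E : ℝ | ¬ ∀ G ∈ regularGraphs n d, ∀ D : Finset (Fin n),
      IsUnit (cutMat (adj G) D (E : ℂ)).det} = 0 := by
  have hsub : {E : ℝ | ¬ ∀ G ∈ regularGraphs n d, ∀ D : Finset (Fin n),
      IsUnit (cutMat (adj G) D (E : ℂ)).det} ⊆
      ⋃ p : SimpleGraph (Fin n) × Finset (Fin n),
        Set.range (zo_herm (adj_isHermitian p.1) p.2).eigenvalues := by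
    intro E hE
    by_contra hcon
    refine hE fun G _ D => isUnit_cutMat (adj_isHermitian G) D fun i h => ?_
    refine hcon (Set.mem_iUnion.2 ⟨(G, D), i, ?_⟩)
    have h2 := congrArg Complex.re h
    simp at h2
    linarith
  refine le_antisymm ((measure_mono hsub).trans ?_) bot_le
  refine (Set.finite_iUnion fun p => Set.finite_range _).measure_zero volume |>.le

/-! ### the conditions in the form used for the selection of good energies -/

theorem T1_vol (d : ℕ) {ε δ : ℝ} (hε : 0 < ε) (hδ : 0 < δ) : ∃ B : ℝ, ∀ n : ℕ,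
    volume {E : ℝ | ε < avg (regularGraphs n d)
      (fun G => ∑ i, if B < |xx E G i| then (xx E G i ^ 2)⁻¹ else 0)} ≤ ENNReal.ofReal δ := by
  refine ⟨2 * Real.pi / (ε * δ), fun n => ?_⟩
  refine (markov_univ (measurable_avg _ fun G _ => Finset.measurable_fun_sum _ fun i _ =>
    measurable_far G i _) (T1_lint n d (by positivity)) hε).trans (ENNReal.ofReal_le_ofReal
    (le_of_eq ?_))
  field_simp

theorem T1'_vol (d : ℕ) (B : ℝ) {δ : ℝ} (hδ : 0 < δ) : ∃ C : ℝ, ∀ n : ℕ,
    volume {E : ℝ | C < avg (regularGraphs n d)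
      (fun G => ∑ i, if |xx E G i| ≤ B then 1 else 0)} ≤ ENNReal.ofReal δ := by
  refine ⟨2 * (|B| + 1) / δ, fun n => ?_⟩
  have h := markov_univ (measurable_avg _ fun G _ => Finset.measurable_fun_sum _ fun i _ =>
    measurable_near G i _) (T1'_lint n d (by positivity : 0 ≤ |B| + 1))
    (by positivity : 0 < 2 * (|B| + 1) / δ)
  refine le_trans (measure_mono fun E hE => ?_) (h.trans (ENNReal.ofReal_le_ofReal (le_of_eq ?_)))
  · refine lt_of_lt_of_le hE (avg_mono fun G _ => Finset.sum_le_sum fun i _ => ?_)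
    by_cases h : |xx E G i| ≤ B
    · rw [if_pos h, if_pos (h.trans ((le_abs_self B).trans (by linarith)))]
    · rw [if_neg h]
      positivity
  · field_simp

theorem T2_vol (d : ℕ) {ε δ : ℝ} (hε : 0 < ε) (hδ : 0 < δ) : ∃ δ' > 0, ∀ n : ℕ,
    volume {E : ℝ | ε < prob (regularGraphs n d) (fun G => ∃ i, |xx E G i| ≤ δ')} ≤
      ENNReal.ofReal δ := by
  refine ⟨ε * δ / 2, by positivity, fun n => ?_⟩
  refine (markov_univ (measurable_T2 n d _) (T2_lint n d (by positivity)) hε).trans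
    (ENNReal.ofReal_le_ofReal (le_of_eq ?_))
  field_simp

theorem T3_vol (d K : ℕ) {ε δ : ℝ} (hε : 0 < ε) (hδ : 0 < δ) : ∃ B : ℝ, ∀ n : ℕ,
    volume {E : ℝ | ε < prob (WW n d K) (fun ω => ∃ a b, B < ‖leadMat ω (E : ℂ) a b‖)} ≤
      ENNReal.ofReal δ := by
  set B : ℝ := max 1 (160 * ((K * d) * (K * d)) / (ε * δ)) with hB
  have hB1 : 1 ≤ B := le_max_left _ _
  refine ⟨B, fun n => ?_⟩
  refine (markov_univ (measurable_T3 n d K B) (T3_lint n d K hB1) hε).trans
    (ENNReal.ofReal_le_ofReal ?_)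
  have h2 : 160 * (((K : ℝ) * d) * (K * d)) / (ε * δ) ≤ B := le_max_right _ _
  rw [div_le_iff₀ (by positivity)] at h2
  rw [div_div, div_le_iff₀ (by positivity)]
  nlinarith

end

end Vale.Agent.P156.H801
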