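import Mathlib
import Vale.Agent.P156.H801.Res

/-! C1: the weak type bound for Stieltjes transforms of finite atomic measures, uniformly in the
distance to the real axis. -/

namespace Vale.Agent.P156.H801

open Matrix Finset MeasureTheory Filter Topology

noncomputable section

/-! ### the Poisson kernel -/

/-- Poisson kernel -/
def pk (η x : ℝ) : ℝ := η / (x ^ 2 + η ^ 2)

theorem pk_nonneg {η : ℝ} (hη : 0 ≤ η) (x : ℝ) : 0 ≤ pk η x := by unfold pk; positivity

theorem pk_eq {η : ℝ} (hη : 0 < η) (x : ℝ) : pk η x = η⁻¹ * (1 + (η⁻¹ * x) ^ 2)⁻¹ := by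
  unfold pk
  have h1 : x ^ 2 + η ^ 2 ≠ 0 := by positivity
  have h2 : 1 + (η⁻¹ * x) ^ 2 ≠ 0 := by positivity
  field_simp
  ring

theorem integrable_pk {η : ℝ} (hη : 0 < η) : Integrable (pk η) := by
  have h : pk η = fun x => η⁻¹ * (1 + (η⁻¹ * x) ^ 2)⁻¹ := funext (pk_eq hη)
  rw [h]
  exact (integrable_inv_one_add_sq.comp_mul_left' (inv_ne_zero hη.ne')).const_mul _

theorem integral_pk {η : ℝ} (hη : 0 < η) : ∫ x, pk η x = Real.pi := by
  have h : pk η = fun x => η⁻¹ * (1 + (η⁻¹ * x) ^ 2)⁻¹ := funext (pk_eq hη)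
  rw [h, integral_const_mul, Measure.integral_comp_mul_left (fun x => (1 + x ^ 2)⁻¹) η⁻¹,
    integral_univ_inv_one_add_sq]
  simp only [inv_inv, smul_eq_mul]
  rw [abs_of_pos hη]
  field_simp

theorem measurable_pk (η : ℝ) : Measurable (pk η) := by unfold pk; fun_prop

theorem integrable_pk_sub {η : ℝ} (hη : 0 < η) (a : ℝ) : Integrable (fun E => pk η (a - E)) :=
  (integrable_pk hη).comp_sub_left a

theorem integral_pk_sub {η : ℝ} (hη : 0 < η) (a : ℝ) : ∫ E, pk η (a - E) = Real.pi := by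
  rw [integral_sub_left_eq_self (pk η) volume a, integral_pk hη]

theorem im_inv (a E η : ℝ) : (1 / ((a : ℂ) - (E + η * Complex.I))).im = pk η (a - E) := by
  unfold pk
  rw [one_div, Complex.inv_im]
  have h1 : ((a : ℂ) - (E + η * Complex.I)).im = -η := by simp
  have h2 : Complex.normSq ((a : ℂ) - (E + η * Complex.I)) = (a - E) ^ 2 + η ^ 2 := by
    rw [Complex.normSq_apply]
    simp
    ring
  rw [h1, h2]
  simp

theorem im_div' (w a E η : ℝ) :
    ((w : ℂ) / ((a : ℂ) - (E + η * Complex.I))).im = w * pk η (a - E) := by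
  rw [div_eq_mul_one_div, Complex.im_ofReal_mul, im_inv]

/-! ### the rank one perturbation -/

variable {ι : Type*} [Fintype ι] [DecidableEq ι]

/-- Stieltjes transform of a finite atomic measure -/
def hh (w lam : ι → ℝ) (z : ℂ) : ℂ := ∑ i, (w i : ℂ) / ((lam i : ℂ) - z)

/-- the rank one perturbation of the diagonal matrix -/
def pm (w lam : ι → ℝ) (c : ℝ) : Matrix ι ι ℝ := fun i j =>
  (if i = j then lam i else 0) - c⁻¹ * (Real.sqrt (w i) * Real.sqrt (w j))

omit [Fintype ι] in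
theorem pm_herm (w lam : ι → ℝ) (c : ℝ) : (pm w lam c).IsHermitian := by
  ext i j
  simp only [Matrix.conjTranspose_apply, pm, star_trivial]
  by_cases h : i = j
  · subst h; rfl
  · rw [if_neg h, if_neg (Ne.symm h)]; ring

/-- quadratic form of the resolvent, spectral formula -/
theorem quad_rs {A : Matrix ι ι ℝ} (hA : A.IsHermitian) {z : ℂ}
    (hz : ∀ i, (hA.eigenvalues i : ℂ) - z ≠ 0) (x : ι → ℝ) :
    ∑ a, ∑ b, (x a : ℂ) * rs A z a b * (x b : ℂ) =
      ∑ i, (((∑ a, ev hA i a * x a) ^ 2 : ℝ) : ℂ) / ((hA.eigenvalues i : ℂ) - z) := by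
  simp only [rs_apply hA hz]
  have h1 : ∀ a b, (x a : ℂ) * (∑ i, ((ev hA i a * ev hA i b : ℝ) : ℂ) /
      ((hA.eigenvalues i : ℂ) - z)) * (x b : ℂ) =
      ∑ i, ((ev hA i a * x a * (ev hA i b * x b) : ℝ) : ℂ) / ((hA.eigenvalues i : ℂ) - z) := by
    intro a b
    rw [Finset.mul_sum, Finset.sum_mul]
    refine Finset.sum_congr rfl fun i _ => ?_
    push_cast
    ring
  simp only [h1]
  rw [show (∑ a, ∑ b, ∑ i, ((ev hA i a * x a * (ev hA i b * x b) : ℝ) : ℂ) /
      ((hA.eigenvalues i : ℂ) - z)) = ∑ i, ∑ a, ∑ b,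
      ((ev hA i a * x a * (ev hA i b * x b) : ℝ) : ℂ) / ((hA.eigenvalues i : ℂ) - z) from ?_]
  · refine Finset.sum_congr rfl fun i _ => ?_
    rw [sq, Finset.sum_mul_sum]
    simp only [Complex.ofReal_sum]
    rw [Finset.sum_div]
    refine Finset.sum_congr rfl fun a _ => ?_
    rw [Finset.sum_div]
  · exact (Finset.sum_congr rfl fun a _ => Finset.sum_comm).trans Finset.sum_comm

theorem sum_proj_sq {A : Matrix ι ι ℝ} (hA : A.IsHermitian) (x : ι → ℝ) :
    ∑ i, (∑ a, ev hA i a * x a) ^ 2 = ∑ a, x a ^ 2 := by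
  have h1 : ∀ i, (∑ a, ev hA i a * x a) ^ 2 =
      ∑ a, ∑ b, (x a * x b) * (ev hA i a * ev hA i b) := by
    intro i
    rw [sq, Finset.sum_mul_sum]
    refine Finset.sum_congr rfl fun a _ => Finset.sum_congr rfl fun b _ => by ring
  simp only [h1]
  rw [Finset.sum_comm]
  refine Finset.sum_congr rfl fun a _ => ?_
  rw [Finset.sum_comm]
  simp only [← Finset.mul_sum, ev_complete]
  simp [sq]

/-- the quadratic form of the perturbed resolvent -/
theorem quad_pm {w lam : ι → ℝ} (hw : ∀ i, 0 ≤ w i) {c : ℝ} (hc : c ≠ 0) {z : ℂ}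
    (hz : z.im ≠ 0) :
    (∑ a, ∑ b, (Real.sqrt (w a) : ℂ) * rs (pm w lam c) z a b * (Real.sqrt (w b) : ℂ)) *
      ((c : ℂ) - hh w lam z) = c * hh w lam z := by
  have hc' : (c : ℂ) ≠ 0 := by exact_mod_cast hc
  set x : ι → ℂ := fun a => (Real.sqrt (w a) : ℂ) with hx
  set y : ι → ℂ := fun a => x a / ((lam a : ℂ) - z) with hy
  set M : Matrix ι ι ℂ := (pm w lam c).map Complex.ofReal - z • (1 : Matrix ι ι ℂ) with hM
  have hlz : ∀ a, (lam a : ℂ) - z ≠ 0 := by
    intro a h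
    have := congrArg Complex.im h
    simp at this
    exact hz this
  have hxy : ∑ a, x a * y a = hh w lam z := by
    unfold hh
    refine Finset.sum_congr rfl fun a _ => ?_
    rw [hy, hx]
    simp only
    rw [← mul_div_assoc, ← Complex.ofReal_mul, Real.mul_self_sqrt (hw a)]
  have hMy : M *ᵥ y = (1 - hh w lam z / c) • x := by
    ext a
    simp only [Matrix.mulVec, dotProduct, hM, Matrix.sub_apply, Matrix.map_apply,
      Matrix.smul_apply, Matrix.one_apply, smul_eq_mul, Pi.smul_apply]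
    have h1 : ∀ b, ((pm w lam c a b : ℂ) - z * (if a = b then 1 else 0)) * y b =
        (if a = b then ((lam a : ℂ) - z) * y b else 0) - (c : ℂ)⁻¹ * x a * (x b * y b) := by
      intro b
      unfold pm
      by_cases hab : a = b
      · subst hab
        simp only [if_true, hx]
        push_cast
        ring
      · simp only [hab, if_false, hx]
        push_cast
        ring
    simp only [h1]
    rw [Finset.sum_sub_distrib, Finset.sum_ite_eq, if_pos (Finset.mem_univ a), ← Finset.mul_sum,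
      hxy, hy]
    simp only
    rw [mul_div_cancel₀ _ (hlz a)]
    field_simp
  have hunit : IsUnit M.det :=
    isUnit_det (pm_herm w lam c) fun i => sub_ne_zero_of_im (pm_herm w lam c) hz i
  have hy2 : y = (1 - hh w lam z / c) • (M⁻¹ *ᵥ x) := by
    have := congrArg (fun v => M⁻¹ *ᵥ v) hMy
    simp only [Matrix.mulVec_mulVec, Matrix.nonsing_inv_mul _ hunit, Matrix.one_mulVec,
      Matrix.mulVec_smul] at this
    exact this
  have hQ : ∑ a, ∑ b, x a * rs (pm w lam c) z a b * x b = ∑ a, x a * (M⁻¹ *ᵥ x) a := by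
    refine Finset.sum_congr rfl fun a _ => ?_
    simp only [Matrix.mulVec, dotProduct, Finset.mul_sum, rs, ← hM]
    refine Finset.sum_congr rfl fun b _ => by ring
  have h3 : hh w lam z = (1 - hh w lam z / c) * ∑ a, x a * (M⁻¹ *ᵥ x) a := by
    rw [← hxy]
    conv_lhs => rw [hy2]
    rw [hxy, Finset.mul_sum]
    refine Finset.sum_congr rfl fun a _ => ?_
    simp only [Pi.smul_apply, smul_eq_mul]
    ring
  rw [hQ]
  have h4 : c * hh w lam z = c * ((1 - hh w lam z / c) * ∑ a, x a * (M⁻¹ *ᵥ x) a) := by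
    rw [← h3]
  rw [h4]
  field_simp

omit [DecidableEq ι] in
theorem hh_im (w lam : ι → ℝ) (E η : ℝ) :
    (hh w lam (E + η * Complex.I)).im = ∑ i, w i * pk η (lam i - E) := by
  unfold hh
  rw [Complex.im_sum]
  exact Finset.sum_congr rfl fun i _ => im_div' _ _ _ _

theorem sub_hh_ne {w lam : ι → ℝ} (hw : ∀ i, 0 ≤ w i) {c : ℝ} (hc : c ≠ 0) {z : ℂ}
    (hz : z.im ≠ 0) : (c : ℂ) - hh w lam z ≠ 0 := by
  intro h
  have h1 := quad_pm (lam := lam) hw hc hz
  rw [h, mul_zero, ← sub_eq_zero.1 h] at h1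
  have : (c : ℂ) ≠ 0 := by exact_mod_cast hc
  exact (mul_ne_zero this this) h1.symm

/-- the Aleksandrov measures have mass `s / c ^ 2` -/
theorem im_inv_sub {w : ι → ℝ} (hw : ∀ i, 0 ≤ w i) (lam : ι → ℝ) {c : ℝ} (hc : c ≠ 0) :
    ∃ (u mu : ι → ℝ), (∀ j, 0 ≤ u j) ∧ ∑ j, u j = ∑ i, w i ∧ ∀ {η : ℝ}, 0 < η → ∀ E : ℝ,
      (1 / ((c : ℂ) - hh w lam (E + η * Complex.I))).im = (c ^ 2)⁻¹ * ∑ j, u j * pk η (mu j - E) := by
  have hA := pm_herm w lam c
  refine ⟨fun j => (∑ a, ev hA j a * Real.sqrt (w a)) ^ 2, hA.eigenvalues, fun j => sq_nonneg _, ?_,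
    ?_⟩
  · rw [sum_proj_sq]
    exact Finset.sum_congr rfl fun a _ => Real.sq_sqrt (hw a)
  · intro η hη E
    have hz : ((E : ℂ) + η * Complex.I).im ≠ 0 := by simp [hη.ne']
    have h1 := quad_pm (lam := lam) hw hc hz
    have h2 := sub_hh_ne (lam := lam) hw hc hz
    rw [quad_rs hA fun i => sub_ne_zero_of_im hA hz i] at h1
    set Q : ℂ := ∑ i, (((∑ a, ev hA i a * Real.sqrt (w a)) ^ 2 : ℝ) : ℂ) /
      ((hA.eigenvalues i : ℂ) - (E + η * Complex.I)) with hQ
    have hc' : (c : ℂ) ≠ 0 := by exact_mod_cast hc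
    have h3 : 1 / ((c : ℂ) - hh w lam (E + η * Complex.I)) =
        ((c⁻¹ : ℝ) : ℂ) + (((c ^ 2)⁻¹ : ℝ) : ℂ) * Q := by
      rw [div_eq_iff h2]
      push_cast
      have : ((c : ℂ)⁻¹ + ((c : ℂ) ^ 2)⁻¹ * Q) * ((c : ℂ) - hh w lam (E + η * Complex.I)) =
          (c : ℂ)⁻¹ * ((c : ℂ) - hh w lam (E + η * Complex.I)) + ((c : ℂ) ^ 2)⁻¹ *
            (Q * ((c : ℂ) - hh w lam (E + η * Complex.I))) := by ring
      rw [this, h1]
      field_simp
      ring
    rw [h3, Complex.add_im, Complex.ofReal_im, zero_add, Complex.im_ofReal_mul, hQ,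
      Complex.im_sum]
    congr 1
    exact Finset.sum_congr rfl fun i _ => im_div' _ _ _ _

end

end Vale.Agent.P156.H801
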