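import Mathlib
import Vale.Agent.P156.H801.Weak

/-! C1: the weak type bound for Stieltjes transforms of finite atomic measures, uniformly in the
distance to the real axis (continued). -/

namespace Vale.Agent.P156.H801

open Matrix Finset MeasureTheory Filter Topology ENNReal

noncomputable section

variable {ι : Type*} [Fintype ι]

theorem lint_pk_sub {η : ℝ} (hη : 0 < η) (a : ℝ) :
    ∫⁻ E, ENNReal.ofReal (pk η (a - E)) = ENNReal.ofReal Real.pi := by
  rw [← ofReal_integral_eq_lintegral_ofReal (integrable_pk_sub hη a)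
    (Eventually.of_forall fun E => pk_nonneg hη.le _), integral_pk_sub hη]

theorem lint_sum_pk {η : ℝ} (hη : 0 < η) {u : ι → ℝ} (hu : ∀ i, 0 ≤ u i) (mu : ι → ℝ) {C : ℝ}
    (hC : 0 ≤ C) :
    ∫⁻ E, ENNReal.ofReal (C * ∑ j, u j * pk η (mu j - E)) =
      ENNReal.ofReal (C * ((∑ j, u j) * Real.pi)) := by
  have hint : ∀ j, Integrable (fun E => u j * pk η (mu j - E)) := fun j =>
    (integrable_pk_sub hη _).const_mul _
  rw [← ofReal_integral_eq_lintegral_ofReal ((integrable_finsetSum _ fun j _ => hint j).const_mul C)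
    (Eventually.of_forall fun E => mul_nonneg hC (Finset.sum_nonneg fun j _ =>
      mul_nonneg (hu j) (pk_nonneg hη.le _))), integral_const_mul,
    integral_finsetSum _ fun j _ => hint j]
  simp only [integral_const_mul, integral_pk_sub hη, ← Finset.sum_mul]

theorem pk_pos {η : ℝ} (hη : 0 < η) (x : ℝ) : 0 < pk η x := by unfold pk; positivity

theorem hh_im_pos {w : ι → ℝ} (hw : ∀ i, 0 ≤ w i) (lam : ι → ℝ) {η : ℝ} (hη : 0 < η) (E : ℝ)
    (h : hh w lam (E + η * Complex.I) ≠ 0) : 0 < (hh w lam (E + η * Complex.I)).im := by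
  rw [hh_im]
  have hnn : ∀ i ∈ Finset.univ, 0 ≤ w i * pk η (lam i - E) := fun i _ =>
    mul_nonneg (hw i) (pk_nonneg hη.le _)
  refine lt_of_le_of_ne (Finset.sum_nonneg hnn) fun h0 => h ?_
  have h1 := (Finset.sum_eq_zero_iff_of_nonneg hnn).1 h0.symm
  unfold hh
  refine Finset.sum_eq_zero fun i hi => ?_
  have h2 : w i = 0 := (mul_eq_zero.1 (h1 i hi)).resolve_right (pk_pos hη _).ne'
  rw [h2]
  simp

theorem im_one_div_sub (c : ℝ) (h : ℂ) : (1 / ((c : ℂ) - h)).im = pk h.im (h.re - c) := by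
  have := im_inv c h.re h.im
  rw [Complex.re_add_im] at this
  rw [this]
  unfold pk
  ring

theorem lower {h : ℂ} (him : 0 < h.im) {B : ℝ} (hB : 0 < B) (hh : B < ‖h‖) :
    2 ≤ ∫⁻ c in {c : ℝ | B / 8 < |c|}, ENNReal.ofReal ((1 / ((c : ℂ) - h)).im) := by
  simp only [im_one_div_sub]
  set S : Set ℝ := {c : ℝ | B / 8 < |c|} with hS
  have hSm : MeasurableSet S := measurableSet_lt measurable_const (by fun_prop)
  have htot := lintegral_add_compl (μ := volume) (fun c => ENNReal.ofReal (pk h.im (h.re - c))) hSm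
  rw [lint_pk_sub him] at htot
  have hSc : ∫⁻ c in Sᶜ, ENNReal.ofReal (pk h.im (h.re - c)) ≤ 1 := by
    have hb : ∀ c ∈ Sᶜ, ENNReal.ofReal (pk h.im (h.re - c)) ≤ ENNReal.ofReal ((64 / 49) / B) := by
      intro c hc
      have hc' : |c| ≤ B / 8 := not_lt.1 hc
      refine ENNReal.ofReal_le_ofReal ?_
      have h1 : ‖h‖ - B / 8 ≤ ‖h - (c : ℂ)‖ := by
        have := norm_sub_norm_le h (c : ℂ)
        rw [Complex.norm_real, Real.norm_eq_abs] at this
        linarith
      have h2 : (7 / 8) * ‖h‖ ≤ ‖h - (c : ℂ)‖ := by linarith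
      have h3 : ‖h - (c : ℂ)‖ ^ 2 = (h.re - c) ^ 2 + h.im ^ 2 := by
        rw [← Complex.normSq_eq_norm_sq, Complex.normSq_apply]
        simp
        ring
      have h4 : h.im ≤ ‖h‖ := (le_abs_self _).trans (Complex.abs_im_le_norm h)
      have h5 : 0 < ‖h‖ := hB.trans hh
      have h6 : (49 / 64) * ‖h‖ ^ 2 ≤ (h.re - c) ^ 2 + h.im ^ 2 := by
        rw [← h3]
        nlinarith [norm_nonneg (h - (c : ℂ))]
      unfold pk
      rw [div_le_div_iff₀ (by positivity) hB]
      nlinarith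
    calc ∫⁻ c in Sᶜ, ENNReal.ofReal (pk h.im (h.re - c))
        ≤ ∫⁻ _ in Sᶜ, ENNReal.ofReal ((64 / 49) / B) := setLIntegral_mono (by fun_prop) hb
      _ = ENNReal.ofReal ((64 / 49) / B) * volume Sᶜ := setLIntegral_const _ _
      _ ≤ ENNReal.ofReal ((64 / 49) / B) * ENNReal.ofReal (B / 8 - -(B / 8)) := by
          gcongr
          rw [← Real.volume_Icc]
          refine measure_mono fun c hc => ?_
          have hc' : |c| ≤ B / 8 := not_lt.1 hc
          exact ⟨neg_le_of_abs_le hc', le_of_abs_le hc'⟩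
      _ = ENNReal.ofReal ((64 / 49) / B * (B / 8 - -(B / 8))) := by
          rw [ENNReal.ofReal_mul (by positivity)]
      _ ≤ 1 := by
          rw [show (64 / 49) / B * (B / 8 - -(B / 8)) = 16 / 49 by field_simp; ring]
          rw [← ENNReal.ofReal_one]
          exact ENNReal.ofReal_le_ofReal (by norm_num)
  have h3 : (2 : ℝ≥0∞) + 1 ≤ (∫⁻ c in S, ENNReal.ofReal (pk h.im (h.re - c))) + 1 := by
    calc (2 : ℝ≥0∞) + 1 = ENNReal.ofReal 3 := by norm_num
      _ ≤ ENNReal.ofReal Real.pi := ENNReal.ofReal_le_ofReal Real.pi_gt_three.le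
      _ = _ := htot.symm
      _ ≤ _ := by gcongr
  exact (ENNReal.add_le_add_iff_right ENNReal.one_ne_top).1 h3

theorem measurable_hh (w lam : ι → ℝ) (η : ℝ) :
    Measurable fun E : ℝ => hh w lam (E + η * Complex.I) := by
  unfold hh
  fun_prop

theorem upper {w : ι → ℝ} (hw : ∀ i, 0 ≤ w i) (lam : ι → ℝ) {η : ℝ} (hη : 0 < η) {B : ℝ}
    (hB : 0 < B) :
    ∫⁻ c in {c : ℝ | B / 8 < |c|}, ∫⁻ E : ℝ, ENNReal.ofReal
      ((1 / ((c : ℂ) - hh w lam (E + η * Complex.I))).im) ≤
      ENNReal.ofReal (16 * Real.pi ^ 2 * (∑ i, w i) / B) := by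
  classical
  set s := ∑ i, w i with hs
  have hs0 : 0 ≤ s := Finset.sum_nonneg fun i _ => hw i
  have hpi := Real.pi_pos
  have h1 : ∀ c ∈ {c : ℝ | B / 8 < |c|}, ∫⁻ E : ℝ, ENNReal.ofReal
      ((1 / ((c : ℂ) - hh w lam (E + η * Complex.I))).im) ≤
      ENNReal.ofReal (16 * Real.pi * s / B) * ENNReal.ofReal (pk (B / 8) (0 - c)) := by
    intro c hc
    have hc1 : B / 8 < |c| := hc
    have hc0 : c ≠ 0 := by
      rintro rfl
      rw [abs_zero] at hc1
      linarith
    obtain ⟨u, mu, hu, hus, hF⟩ := im_inv_sub hw lam hc0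
    simp only [hF hη]
    rw [lint_sum_pk hη hu mu (by positivity), hus, ← hs, ← ENNReal.ofReal_mul (by positivity)]
    refine ENNReal.ofReal_le_ofReal ?_
    have hc2 : 0 < c ^ 2 := by positivity
    have hc3 : (B / 8) ^ 2 ≤ c ^ 2 := by
      rw [← sq_abs c]
      exact pow_le_pow_left₀ (by positivity) hc1.le 2
    have h2 : (c ^ 2)⁻¹ ≤ 16 / B * pk (B / 8) (0 - c) := by
      unfold pk
      rw [inv_le_iff_one_le_mul₀ hc2, div_mul_div_comm, div_mul_eq_mul_div,
        le_div_iff₀ (by positivity)]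
      nlinarith
    calc (c ^ 2)⁻¹ * (s * Real.pi) ≤ (16 / B * pk (B / 8) (0 - c)) * (s * Real.pi) := by
          gcongr
      _ = _ := by ring
  calc ∫⁻ c in {c : ℝ | B / 8 < |c|}, ∫⁻ E : ℝ, ENNReal.ofReal
          ((1 / ((c : ℂ) - hh w lam (E + η * Complex.I))).im)
      ≤ ∫⁻ c in {c : ℝ | B / 8 < |c|}, ENNReal.ofReal (16 * Real.pi * s / B) *
        ENNReal.ofReal (pk (B / 8) (0 - c)) :=
        setLIntegral_mono (by have := measurable_pk (B / 8); fun_prop) h1
    _ ≤ ∫⁻ c, ENNReal.ofReal (16 * Real.pi * s / B) * ENNReal.ofReal (pk (B / 8) (0 - c)) :=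
        setLIntegral_le_lintegral _ _
    _ = ENNReal.ofReal (16 * Real.pi * s / B) * ENNReal.ofReal Real.pi := by
        rw [lintegral_const_mul _ (by have := measurable_pk (B / 8); fun_prop),
          lint_pk_sub (by positivity)]
    _ = _ := by
        rw [← ENNReal.ofReal_mul (by positivity)]
        congr 1
        ring

/-- **weak type bound**, positive distance to the axis -/
theorem weak_pos {w : ι → ℝ} (hw : ∀ i, 0 ≤ w i) (lam : ι → ℝ) {η : ℝ} (hη : 0 < η) {B : ℝ}
    (hB : 0 < B) :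
    volume {E : ℝ | B < ‖hh w lam (E + η * Complex.I)‖} ≤
      ENNReal.ofReal (80 * (∑ i, w i) / B) := by
  classical
  set s := ∑ i, w i with hs
  have hs0 : 0 ≤ s := Finset.sum_nonneg fun i _ => hw i
  set T : Set ℝ := {E : ℝ | B < ‖hh w lam (E + η * Complex.I)‖} with hT
  have hTm : MeasurableSet T :=
    measurableSet_lt measurable_const (measurable_hh w lam η).norm
  have h1 : 2 * volume T ≤ ∫⁻ E : ℝ, ∫⁻ c in {c : ℝ | B / 8 < |c|}, ENNReal.ofReal
      ((1 / ((c : ℂ) - hh w lam (E + η * Complex.I))).im) := by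
    calc 2 * volume T = ∫⁻ _ in T, 2 := (setLIntegral_const _ _).symm
      _ ≤ ∫⁻ E in T, ∫⁻ c in {c : ℝ | B / 8 < |c|}, ENNReal.ofReal
          ((1 / ((c : ℂ) - hh w lam (E + η * Complex.I))).im) := by
          refine setLIntegral_mono' hTm fun E hE => ?_
          have hE' : B < ‖hh w lam (E + η * Complex.I)‖ := hE
          refine lower (hh_im_pos hw lam hη E ?_) hB hE'
          intro h0
          rw [h0, norm_zero] at hE'
          linarith
      _ ≤ _ := setLIntegral_le_lintegral _ _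
  have h2 : (∫⁻ E : ℝ, ∫⁻ c in {c : ℝ | B / 8 < |c|}, ENNReal.ofReal
      ((1 / ((c : ℂ) - hh w lam (E + η * Complex.I))).im)) =
      ∫⁻ c in {c : ℝ | B / 8 < |c|}, ∫⁻ E : ℝ, ENNReal.ofReal
      ((1 / ((c : ℂ) - hh w lam (E + η * Complex.I))).im) := by
    refine lintegral_lintegral_swap ?_
    refine Measurable.aemeasurable ?_
    unfold Function.uncurry hh
    fun_prop
  rw [h2] at h1
  have h3 := h1.trans (upper hw lam hη hB)
  have h4 : 2 * volume T ≤ 2 * ENNReal.ofReal (80 * s / B) := by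
    refine h3.trans ?_
    rw [show (2 : ℝ≥0∞) = ENNReal.ofReal 2 by norm_num, ← ENNReal.ofReal_mul (by norm_num)]
    refine ENNReal.ofReal_le_ofReal ?_
    have hpi2 : Real.pi ^ 2 ≤ 10 := by nlinarith [Real.pi_lt_d2, Real.pi_pos]
    rw [← mul_div_assoc]
    gcongr ?_ / B
    nlinarith
  rwa [ENNReal.mul_le_mul_iff_right (by norm_num) (by norm_num)] at h4

theorem tendsto_hh (w lam : ι → ℝ) {E : ℝ} (hE : ∀ i, lam i ≠ E) :
    Tendsto (fun η : ℝ => hh w lam (E + η * Complex.I)) (𝓝 0) (𝓝 (hh w lam (E + (0 : ℝ) * Complex.I)))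
    := by
  unfold hh
  refine tendsto_finsetSum _ fun i _ => ?_
  refine Tendsto.div tendsto_const_nhds ?_ ?_
  · have : Continuous fun η : ℝ => (lam i : ℂ) - (E + η * Complex.I) := by fun_prop
    exact this.tendsto 0
  · intro h
    refine hE i ?_
    have h2 := congrArg Complex.re h
    simp at h2
    linarith

/-- **weak type bound (C1)**: for a positive atomic measure, uniformly in the distance `η ≥ 0` to
the real axis -/
theorem weak_type {w : ι → ℝ} (hw : ∀ i, 0 ≤ w i) (lam : ι → ℝ) {η : ℝ} (hη : 0 ≤ η) {B : ℝ}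
    (hB : 0 < B) :
    volume {E : ℝ | B < ‖hh w lam (E + η * Complex.I)‖} ≤
      ENNReal.ofReal (80 * (∑ i, w i) / B) := by
  rcases hη.eq_or_lt with rfl | hη
  swap
  · exact weak_pos hw lam hη hB
  set T : ℕ → Set ℝ := fun m =>
    {E : ℝ | B < ‖hh w lam (E + ((1 / ((m : ℝ) + 1) : ℝ) : ℂ) * Complex.I)‖} with hT
  have hTb : ∀ m, volume (T m) ≤ ENNReal.ofReal (80 * (∑ i, w i) / B) := fun m =>
    weak_pos hw lam (by positivity) hB
  set U : ℕ → Set ℝ := fun N => ⋂ m ≥ N, T m with hU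
  have hUmono : Monotone U := by
    intro N N' hNN'
    refine Set.iInter₂_mono' fun m hm => ⟨m, hNN'.trans hm, le_rfl⟩
  have hUb : ∀ N, volume (U N) ≤ ENNReal.ofReal (80 * (∑ i, w i) / B) := fun N =>
    (measure_mono (Set.iInter₂_subset N le_rfl)).trans (hTb N)
  have hUU : volume (⋃ N, U N) ≤ ENNReal.ofReal (80 * (∑ i, w i) / B) := by
    rw [hUmono.measure_iUnion]
    exact iSup_le hUb
  have hfin : volume (Set.range lam) = 0 := (Set.finite_range lam).measure_zero _
  have hsub : {E : ℝ | B < ‖hh w lam (E + ((0 : ℝ) : ℂ) * Complex.I)‖} ⊆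
      Set.range lam ∪ ⋃ N, U N := by
    intro E hE
    by_cases hEr : E ∈ Set.range lam
    · exact Or.inl hEr
    · right
      have hE' : ∀ i, lam i ≠ E := fun i hi => hEr ⟨i, hi⟩
      have h1 : Tendsto (fun m : ℕ => ‖hh w lam (E + ((1 / ((m : ℝ) + 1) : ℝ) : ℂ) * Complex.I)‖)
          atTop (𝓝 ‖hh w lam (E + ((0 : ℝ) : ℂ) * Complex.I)‖) :=
        ((tendsto_hh w lam hE').comp tendsto_one_div_add_atTop_nhds_zero_nat).norm
      have h2 := h1.eventually (lt_mem_nhds hE)
      obtain ⟨N, hN⟩ := eventually_atTop.1 h2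
      exact Set.mem_iUnion.2 ⟨N, Set.mem_iInter₂.2 fun m hm => hN m hm⟩
  calc volume {E : ℝ | B < ‖hh w lam (E + ((0 : ℝ) : ℂ) * Complex.I)‖}
      ≤ volume (Set.range lam ∪ ⋃ N, U N) := measure_mono hsub
    _ ≤ volume (Set.range lam) + volume (⋃ N, U N) := measure_union_le _ _
    _ ≤ _ := by rw [hfin, zero_add]; exact hUU

/-- weak type bound for signed weights -/
theorem weak_type_signed (w lam : ι → ℝ) {η : ℝ} (hη : 0 ≤ η) {B : ℝ} (hB : 0 < B) :
    volume {E : ℝ | B < ‖hh w lam (E + η * Complex.I)‖} ≤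
      ENNReal.ofReal (160 * (∑ i, |w i|) / B) := by
  set wp : ι → ℝ := fun i => max (w i) 0 with hwp
  set wm : ι → ℝ := fun i => max (-w i) 0 with hwm
  have hp : ∀ i, 0 ≤ wp i := fun i => le_max_right _ _
  have hm : ∀ i, 0 ≤ wm i := fun i => le_max_right _ _
  have hsub : ∀ i, w i = wp i - wm i := by
    intro i
    rw [hwp, hwm]
    rcases le_total (w i) 0 with h | h
    · simp only [max_eq_right h, max_eq_left (neg_nonneg.2 h)]; ring
    · simp only [max_eq_left h, max_eq_right (neg_nonpos.2 h)]; ring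
  have habs : ∀ i, |w i| = wp i + wm i := by
    intro i
    rw [hwp, hwm]
    rcases le_total (w i) 0 with h | h
    · simp only [max_eq_right h, max_eq_left (neg_nonneg.2 h), abs_of_nonpos h]; ring
    · simp only [max_eq_left h, max_eq_right (neg_nonpos.2 h), abs_of_nonneg h]; ring
  have hdec : ∀ z, hh w lam z = hh wp lam z - hh wm lam z := by
    intro z
    unfold hh
    rw [← Finset.sum_sub_distrib]
    refine Finset.sum_congr rfl fun i _ => ?_
    rw [hsub i]
    push_cast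
    ring
  have hincl : {E : ℝ | B < ‖hh w lam (E + η * Complex.I)‖} ⊆
      {E : ℝ | B / 2 < ‖hh wp lam (E + η * Complex.I)‖} ∪
      {E : ℝ | B / 2 < ‖hh wm lam (E + η * Complex.I)‖} := by
    intro E hE
    have hE' : B < ‖hh w lam (E + η * Complex.I)‖ := hE
    by_contra hcon
    rw [Set.mem_union, not_or] at hcon
    have h1 : ‖hh wp lam (E + η * Complex.I)‖ ≤ B / 2 := not_lt.1 hcon.1
    have h2 : ‖hh wm lam (E + η * Complex.I)‖ ≤ B / 2 := not_lt.1 hcon.2
    rw [hdec] at hE'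
    have := norm_sub_le (hh wp lam (E + η * Complex.I)) (hh wm lam (E + η * Complex.I))
    linarith
  calc volume {E : ℝ | B < ‖hh w lam (E + η * Complex.I)‖}
      ≤ volume {E : ℝ | B / 2 < ‖hh wp lam (E + η * Complex.I)‖} +
        volume {E : ℝ | B / 2 < ‖hh wm lam (E + η * Complex.I)‖} :=
        (measure_mono hincl).trans (measure_union_le _ _)
    _ ≤ ENNReal.ofReal (80 * (∑ i, wp i) / (B / 2)) +
        ENNReal.ofReal (80 * (∑ i, wm i) / (B / 2)) :=
        add_le_add (weak_type hp lam hη (by positivity)) (weak_type hm lam hη (by positivity))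
    _ = ENNReal.ofReal (160 * (∑ i, |w i|) / B) := by
        have h1 : 0 ≤ ∑ i, wp i := Finset.sum_nonneg fun i _ => hp i
        have h2 : 0 ≤ ∑ i, wm i := Finset.sum_nonneg fun i _ => hm i
        rw [← ENNReal.ofReal_add (by positivity) (by positivity)]
        congr 1
        simp only [habs, Finset.sum_add_distrib]
        field_simp
        ring

end

end Vale.Agent.P156.H801
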